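import Mathlib

/-!
# Computability toolkit for `ℚ` (helper file for S0170)

`Primcodable ℚ` comes from `Denumerable ℚ := ofEncodableOfInfinite ℚ`.  We show that the basic
operations on `ℚ` are `Computable` for this coding.
-/

set_option autoImplicit false

namespace Crest.Agent.S0170

open Encodable Denumerable

/-- the original (non-surjective) code of a rational. -/
noncomputable def enc0 (q : ℚ) : ℕ := @encode ℚ Rat.instEncodable q

theorem enc0_eq (q : ℚ) : enc0 q = Nat.pair (encode q.num) q.den := rfl

/-- The set of valid codes. -/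
abbrev S0 : Set ℕ := Set.range (@encode ℚ Rat.instEncodable)

instance instDecS0 : DecidablePred (· ∈ S0) := @decidableRangeEncode ℚ Rat.instEncodable
instance instInfS0 : Infinite S0 :=
  Infinite.of_injective _ (Equiv.ofInjective _ (@encode_injective ℚ Rat.instEncodable)).injective

theorem enc0_ofNat (k : ℕ) : enc0 (ofNat ℚ k) = (Nat.Subtype.ofNat S0 k : ℕ) := by
  have h1 : ofNat ℚ k = (@equivRangeEncode ℚ Rat.instEncodable).symm
      (@ofNat S0 (Nat.Subtype.denumerable S0) k) := by
    exact @Denumerable.ofEquiv_ofNat S0 ℚ (Nat.Subtype.denumerable S0)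
      (@equivRangeEncode ℚ Rat.instEncodable) k
  have h2 : @ofNat S0 (Nat.Subtype.denumerable S0) k = Nat.Subtype.ofNat S0 k := by
    rfl
  rw [h1, h2]
  have := (@equivRangeEncode ℚ Rat.instEncodable).apply_symm_apply (Nat.Subtype.ofNat S0 k)
  exact congrArg Subtype.val this

theorem natAbs_eq_code (z : ℤ) : z.natAbs = (encode z + 1) / 2 := by
  cases z with
  | ofNat n =>
    have : encode (Int.ofNat n) = 2 * n := rfl
    rw [this]; simp; omega
  | negSucc n =>
    have : encode (Int.negSucc n) = 2 * n + 1 := rfl
    rw [this]; simp; omega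

/-- arithmetic description of validity of a code. -/
def Valid (m : ℕ) : Prop :=
  0 < m.unpair.2 ∧ ∀ g < m.unpair.2 + 1, (((m.unpair.1 + 1) / 2) % g = 0 ∧ m.unpair.2 % g = 0) → g = 1

theorem coprime_iff_forall (x d : ℕ) (hd : 0 < d) :
    Nat.Coprime x d ↔ ∀ g < d + 1, (x % g = 0 ∧ d % g = 0) → g = 1 := by
  constructor
  · intro h g _ hg
    have h1 : g ∣ x := Nat.dvd_of_mod_eq_zero hg.1
    have h2 : g ∣ d := Nat.dvd_of_mod_eq_zero hg.2
    exact Nat.eq_one_of_dvd_coprimes h h1 h2
  · intro h
    have h1 : Nat.gcd x d ∣ d := Nat.gcd_dvd_right x d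
    have h2 : Nat.gcd x d ∣ x := Nat.gcd_dvd_left x d
    exact h _ (Nat.lt_succ_of_le (Nat.le_of_dvd hd h1))
      ⟨Nat.mod_eq_zero_of_dvd h2, Nat.mod_eq_zero_of_dvd h1⟩

theorem mem_S0_iff (m : ℕ) : m ∈ S0 ↔ Valid m := by
  constructor
  · rintro ⟨q, rfl⟩
    change Valid (enc0 q)
    rw [enc0_eq]
    unfold Valid
    simp only [Nat.unpair_pair]
    refine ⟨q.pos, ?_⟩
    rw [← natAbs_eq_code, ← coprime_iff_forall _ _ q.pos]
    exact q.reduced
  · rintro ⟨h1, h2⟩
    obtain ⟨z, hz⟩ : ∃ z : ℤ, encode z = m.unpair.1 := ⟨ofNat ℤ m.unpair.1, encode_ofNat _⟩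
    rw [← hz, ← natAbs_eq_code, ← coprime_iff_forall _ _ h1] at h2
    refine ⟨⟨z, m.unpair.2, h1.ne', h2⟩, ?_⟩
    change enc0 _ = m
    rw [enc0_eq]
    simp only [hz, Nat.pair_unpair]

theorem primrecPred_valid : PrimrecPred Valid := by
  unfold Valid
  refine PrimrecPred.and ?_ ?_
  · exact Primrec.nat_lt.comp (Primrec.const 0) (Primrec.snd.comp Primrec.unpair)
  · have hR : PrimrecRel (fun (g m : ℕ) =>
        (((m.unpair.1 + 1) / 2) % g = 0 ∧ m.unpair.2 % g = 0) → g = 1) := by
      have h1 : PrimrecRel (fun (g m : ℕ) => ((m.unpair.1 + 1) / 2) % g = 0) := by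
        refine Primrec.eq.comp₂ ?_ (Primrec₂.const 0)
        refine Primrec.nat_mod.comp₂ ?_ Primrec₂.left
        refine Primrec.nat_div.comp₂ ?_ (Primrec₂.const 2)
        exact (Primrec.succ.comp (Primrec.fst.comp Primrec.unpair)).comp₂ Primrec₂.right
      have h2 : PrimrecRel (fun (g m : ℕ) => m.unpair.2 % g = 0) := by
        refine Primrec.eq.comp₂ ?_ (Primrec₂.const 0)
        refine Primrec.nat_mod.comp₂ ?_ Primrec₂.left
        exact (Primrec.snd.comp Primrec.unpair).comp₂ Primrec₂.right
      have h3 : PrimrecRel (fun (g _m : ℕ) => g = 1) :=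
        Primrec.eq.comp₂ Primrec₂.left (Primrec₂.const 1)
      have := ((h1.and h2).not).or h3
      refine PrimrecPred.of_eq this ?_
      intro a
      simp only
      tauto
    have := hR.forall_lt
    exact this.comp (Primrec.succ.comp (Primrec.snd.comp Primrec.unpair)) Primrec.id

instance instDecValid : DecidablePred Valid := fun m => by unfold Valid; infer_instance

/-- partial "next valid code" function. -/
def nextValid (x : ℕ) : Part ℕ :=
  (Nat.rfind (fun n => Part.some (decide (Valid (x + n + 1))))).map (fun n => x + n + 1)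

theorem partrec_nextValid : Partrec nextValid := by
  unfold nextValid
  refine Partrec.map ?_ ?_
  · refine Partrec.rfind ?_
    have : Computable₂ (fun (x n : ℕ) => decide (Valid (x + n + 1))) := by
      have h := primrecPred_valid.decide
      exact (h.comp (Primrec.succ.comp (Primrec.nat_add.comp Primrec.fst Primrec.snd))).to_comp
    exact this.partrec₂
  · exact (Primrec.succ.comp (Primrec.nat_add.comp Primrec.fst Primrec.snd)).to_comp

theorem succ_mem_nextValid (x : S0) : ((Nat.Subtype.succ x : S0) : ℕ) ∈ nextValid x := by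
  have h : ∃ m, (x : ℕ) + m + 1 ∈ S0 := Nat.Subtype.exists_succ x
  have hs : ((Nat.Subtype.succ x : S0) : ℕ) = x + Nat.find h + 1 := rfl
  rw [hs]
  unfold nextValid
  rw [Part.mem_map_iff]
  refine ⟨Nat.find h, ?_, rfl⟩
  refine Nat.mem_rfind.2 ⟨?_, ?_⟩
  · simp only [Part.mem_some_iff]
    symm
    rw [decide_eq_true_iff, ← mem_S0_iff]
    exact Nat.find_spec h
  · intro m hm
    simp only [Part.mem_some_iff]
    symm
    rw [decide_eq_false_iff_not, ← mem_S0_iff]
    exact Nat.find_min h hm

theorem computable_nth : Computable (fun k : ℕ => (Nat.Subtype.ofNat S0 k : ℕ)) := by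
  have hh : Partrec₂ (fun (_ : ℕ) (p : ℕ × ℕ) => nextValid p.2) :=
    partrec_nextValid.comp (Computable.snd.comp Computable.snd)
  have hp := Partrec.nat_rec (Computable.id (α := ℕ))
      (Computable.const (α := ℕ) ((Nat.Subtype.ofNat S0 0 : S0) : ℕ)).partrec hh
  refine hp.of_eq_tot ?_
  intro k
  induction k with
  | zero => simp
  | succ k ih =>
    simp only [id] at ih ⊢
    rw [Part.mem_bind_iff]
    exact ⟨_, ih, succ_mem_nextValid _⟩

/-- `q ↦ enc0 q` is computable. -/
theorem computable_enc0 : Computable enc0 := by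
  have h : Computable (fun q : ℚ =>
      (Nat.Subtype.ofNat S0 (@encode ℚ Primcodable.toEncodable q) : ℕ)) :=
    computable_nth.comp Computable.encode
  refine h.of_eq ?_
  intro q
  rw [← enc0_ofNat]
  congr 1
  exact ofNat_encode q

/-- positive part of the numerator. -/
def posPart (q : ℚ) : ℕ := q.num.toNat
/-- negative part of the numerator. -/
def negPart (q : ℚ) : ℕ := (-q.num).toNat

theorem computable_den : Computable (fun q : ℚ => q.den) := by
  have h : Computable (fun q : ℚ => (enc0 q).unpair.2) :=
    Computable.snd.comp (Computable.unpair.comp computable_enc0)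
  exact h.of_eq (fun q => by rw [enc0_eq]; simp)

theorem toNat_eq_code (z : ℤ) : z.toNat = bif (encode z).bodd then 0 else (encode z).div2 := by
  cases z with
  | ofNat n =>
    have : encode (Int.ofNat n) = 2 * n := rfl
    rw [this]; simp [Nat.div2_val]
  | negSucc n =>
    have : encode (Int.negSucc n) = 2 * n + 1 := rfl
    rw [this]; simp

theorem neg_toNat_eq_code (z : ℤ) :
    (-z).toNat = bif (encode z).bodd then (encode z).div2 + 1 else 0 := by
  cases z with
  | ofNat n =>
    have : encode (Int.ofNat n) = 2 * n := rfl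
    rw [this]; simp
  | negSucc n =>
    have : encode (Int.negSucc n) = 2 * n + 1 := rfl
    rw [this]; simp [Nat.div2_val, Int.neg_negSucc]

theorem computable_posPart : Computable posPart := by
  have ha : Computable (fun q : ℚ => (enc0 q).unpair.1) :=
    Computable.fst.comp (Computable.unpair.comp computable_enc0)
  have h : Computable (fun q : ℚ => bif ((enc0 q).unpair.1).bodd then 0
      else ((enc0 q).unpair.1).div2) :=
    Computable.cond (Computable.nat_bodd.comp ha) (Computable.const 0) (Computable.nat_div2.comp ha)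
  refine h.of_eq (fun q => ?_)
  rw [enc0_eq, posPart, toNat_eq_code]; simp

theorem computable_negPart : Computable negPart := by
  have ha : Computable (fun q : ℚ => (enc0 q).unpair.1) :=
    Computable.fst.comp (Computable.unpair.comp computable_enc0)
  have h : Computable (fun q : ℚ => bif ((enc0 q).unpair.1).bodd then ((enc0 q).unpair.1).div2 + 1
      else 0) :=
    Computable.cond (Computable.nat_bodd.comp ha)
      (Computable.succ.comp (Computable.nat_div2.comp ha)) (Computable.const 0)
  refine h.of_eq (fun q => ?_)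
  rw [enc0_eq, negPart, neg_toNat_eq_code]; simp

theorem num_eq_parts (q : ℚ) : q.num = (posPart q : ℤ) - (negPart q : ℤ) := by
  unfold posPart negPart
  omega

theorem eq_parts (q : ℚ) : q = ((posPart q : ℚ) - (negPart q : ℚ)) / (q.den : ℚ) := by
  have h := Rat.num_div_den q
  rw [num_eq_parts] at h
  push_cast at h
  exact h.symm

/-- the rational `(p - n) / (d + 1)`. -/
def mkQ (r : ℕ × ℕ × ℕ) : ℚ := ((r.1 : ℚ) - (r.2.1 : ℚ)) / ((r.2.2 : ℚ) + 1)

/-- the test used in the search for the code of `mkQ r`. -/
def testQ (r : ℕ × ℕ × ℕ) (q : ℚ) : Bool :=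
  (posPart q * (r.2.2 + 1) + r.2.1 * q.den) == (r.1 * q.den + negPart q * (r.2.2 + 1))

theorem testQ_iff (r : ℕ × ℕ × ℕ) (q : ℚ) : testQ r q = true ↔ q = mkQ r := by
  unfold testQ mkQ
  rw [beq_iff_eq]
  have hd : (q.den : ℚ) ≠ 0 := by exact_mod_cast q.den_nz
  have hd' : ((r.2.2 : ℚ) + 1) ≠ 0 := by positivity
  have hq2 : q * q.den = (posPart q : ℚ) - negPart q := by
    have hq := eq_parts q
    rwa [eq_div_iff hd] at hq
  constructor
  · intro h
    have h' : (posPart q : ℚ) * ((r.2.2 : ℚ) + 1) + r.2.1 * q.den
        = r.1 * q.den + negPart q * ((r.2.2 : ℚ) + 1) := by exact_mod_cast h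
    rw [eq_div_iff hd']
    apply mul_right_cancel₀ hd
    linear_combination h' + ((r.2.2 : ℚ) + 1) * hq2
  · intro h
    rw [eq_div_iff hd'] at h
    have h' : (posPart q : ℚ) * ((r.2.2 : ℚ) + 1) + r.2.1 * q.den
        = r.1 * q.den + negPart q * ((r.2.2 : ℚ) + 1) := by
      linear_combination (q.den : ℚ) * h - ((r.2.2 : ℚ) + 1) * hq2
    exact_mod_cast h'

theorem computable_testQ : Computable₂ testQ := by
  unfold testQ
  have hq : Computable (fun x : (ℕ × ℕ × ℕ) × ℚ => x.2) := Computable.snd
  have hp : Computable (fun x : (ℕ × ℕ × ℕ) × ℚ => x.1.1) := Computable.fst.comp Computable.fst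
  have hn : Computable (fun x : (ℕ × ℕ × ℕ) × ℚ => x.1.2.1) :=
    Computable.fst.comp (Computable.snd.comp Computable.fst)
  have hd : Computable (fun x : (ℕ × ℕ × ℕ) × ℚ => x.1.2.2 + 1) :=
    Computable.succ.comp (Computable.snd.comp (Computable.snd.comp Computable.fst))
  have mul := Primrec.nat_mul.to_comp
  have add := Primrec.nat_add.to_comp
  have beq := (Primrec.beq (α := ℕ)).to_comp
  exact beq.comp
    (add.comp (mul.comp (computable_posPart.comp hq) hd) (mul.comp hn (computable_den.comp hq)))
    (add.comp (mul.comp hp (computable_den.comp hq)) (mul.comp (computable_negPart.comp hq) hd))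

theorem computable_mkQ : Computable mkQ := by
  have h1 : Partrec₂ (fun (r : ℕ × ℕ × ℕ) (k : ℕ) => (Part.some (testQ r (ofNat ℚ k)) : Part Bool)) := by
    have : Computable₂ (fun (r : ℕ × ℕ × ℕ) (k : ℕ) => testQ r (ofNat ℚ k)) :=
      computable_testQ.comp Computable.fst ((Computable.ofNat ℚ).comp Computable.snd)
    exact this.partrec₂
  have h2 := (Partrec.rfind h1).map ((Computable.ofNat ℚ).comp Computable.snd).to₂
  refine h2.of_eq_tot (fun r => ?_)
  rw [Part.mem_map_iff]
  refine ⟨@encode ℚ Primcodable.toEncodable (mkQ r), ?_, ofNat_encode _⟩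
  refine Nat.mem_rfind.2 ⟨?_, ?_⟩
  · simp only [Part.mem_some_iff]
    symm
    rw [testQ_iff]
    exact ofNat_encode _
  · intro m hm
    simp only [Part.mem_some_iff]
    symm
    rw [Bool.eq_false_iff, ne_eq, testQ_iff]
    intro h
    have : @encode ℚ Primcodable.toEncodable (ofNat ℚ m) = m := encode_ofNat m
    rw [h] at this
    omega

section ops

variable {α : Type*} [Primcodable α]

theorem den_cast_ne (q : ℚ) : (q.den : ℚ) ≠ 0 := by exact_mod_cast q.den_nz

theorem pred_den_cast (d : ℕ) (hd : 0 < d) : (((d - 1 : ℕ) : ℚ) + 1) = d := by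
  have : ((d - 1 : ℕ) + 1 : ℕ) = d := Nat.sub_add_cancel hd
  exact_mod_cast this

theorem qadd_eq (x y : ℚ) : x + y = mkQ (posPart x * y.den + posPart y * x.den,
    negPart x * y.den + negPart y * x.den, x.den * y.den - 1) := by
  unfold mkQ
  simp only
  rw [pred_den_cast _ (Nat.mul_pos x.pos y.pos)]
  have hx := den_cast_ne x
  have hy := den_cast_ne y
  conv_lhs => rw [eq_parts x, eq_parts y]
  push_cast
  field_simp
  ring

theorem qmul_eq (x y : ℚ) : x * y = mkQ (posPart x * posPart y + negPart x * negPart y,
    posPart x * negPart y + negPart x * posPart y, x.den * y.den - 1) := by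
  unfold mkQ
  simp only
  rw [pred_den_cast _ (Nat.mul_pos x.pos y.pos)]
  have hx := den_cast_ne x
  have hy := den_cast_ne y
  conv_lhs => rw [eq_parts x, eq_parts y]
  push_cast
  field_simp
  ring

theorem qneg_eq (x : ℚ) : -x = mkQ (negPart x, posPart x, x.den - 1) := by
  unfold mkQ
  simp only
  rw [pred_den_cast _ x.pos]
  have hx := den_cast_ne x
  conv_lhs => rw [eq_parts x]
  field_simp
  ring

theorem parts_zero (x : ℚ) : posPart x = 0 ∨ negPart x = 0 := by
  unfold posPart negPart; omega

theorem qinv_eq (x : ℚ) : x⁻¹ = mkQ (bif posPart x == 0 then 0 else x.den,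
    bif negPart x == 0 then 0 else x.den, (posPart x + negPart x) - 1) := by
  unfold mkQ
  simp only
  have hx := den_cast_ne x
  rcases Nat.eq_zero_or_pos (posPart x) with hp | hp
  · rcases Nat.eq_zero_or_pos (negPart x) with hn | hn
    · have : x = 0 := by rw [eq_parts x, hp, hn]; simp
      subst this
      simp [posPart, negPart]
    · have hne : negPart x ≠ 0 := hn.ne'
      have hb : (negPart x == 0) = false := by simpa using hne
      rw [hp, hb, zero_add, pred_den_cast _ hn]
      conv_lhs => rw [eq_parts x, hp]
      have : (negPart x : ℚ) ≠ 0 := by exact_mod_cast hne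
      simp only [beq_self_eq_true, cond_true, cond_false]
      push_cast
      field_simp
      ring
  · have hn : negPart x = 0 := by
      rcases parts_zero x with h | h
      · omega
      · exact h
    have hne : posPart x ≠ 0 := hp.ne'
    have hb : (posPart x == 0) = false := by simpa using hne
    rw [hn, hb, add_zero, pred_den_cast _ hp]
    conv_lhs => rw [eq_parts x, hn]
    have : (posPart x : ℚ) ≠ 0 := by exact_mod_cast hne
    simp only [beq_self_eq_true, cond_true, cond_false]
    push_cast
    field_simp
    ring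

theorem qcast_eq (k : ℕ) : (k : ℚ) = mkQ (k, 0, 0) := by
  unfold mkQ; simp

private theorem cmul : Computable₂ ((· * ·) : ℕ → ℕ → ℕ) := Primrec.nat_mul.to_comp
private theorem cadd : Computable₂ ((· + ·) : ℕ → ℕ → ℕ) := Primrec.nat_add.to_comp
private theorem csub : Computable₂ ((· - ·) : ℕ → ℕ → ℕ) := Primrec.nat_sub.to_comp

theorem comp_qadd {f g : α → ℚ} (hf : Computable f) (hg : Computable g) :
    Computable (fun a => f a + g a) := by
  have h : Computable (fun a => mkQ (posPart (f a) * (g a).den + posPart (g a) * (f a).den,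
    negPart (f a) * (g a).den + negPart (g a) * (f a).den, (f a).den * (g a).den - 1)) := by
    refine computable_mkQ.comp (Computable.pair ?_ (Computable.pair ?_ ?_))
    · exact cadd.comp (cmul.comp (computable_posPart.comp hf) (computable_den.comp hg))
        (cmul.comp (computable_posPart.comp hg) (computable_den.comp hf))
    · exact cadd.comp (cmul.comp (computable_negPart.comp hf) (computable_den.comp hg))
        (cmul.comp (computable_negPart.comp hg) (computable_den.comp hf))
    · exact csub.comp (cmul.comp (computable_den.comp hf) (computable_den.comp hg))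
        (Computable.const 1)
  exact h.of_eq (fun a => (qadd_eq _ _).symm)

theorem comp_qmul {f g : α → ℚ} (hf : Computable f) (hg : Computable g) :
    Computable (fun a => f a * g a) := by
  have h : Computable (fun a => mkQ (posPart (f a) * posPart (g a) + negPart (f a) * negPart (g a),
    posPart (f a) * negPart (g a) + negPart (f a) * posPart (g a), (f a).den * (g a).den - 1)) := by
    refine computable_mkQ.comp (Computable.pair ?_ (Computable.pair ?_ ?_))
    · exact cadd.comp (cmul.comp (computable_posPart.comp hf) (computable_posPart.comp hg))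
        (cmul.comp (computable_negPart.comp hf) (computable_negPart.comp hg))
    · exact cadd.comp (cmul.comp (computable_posPart.comp hf) (computable_negPart.comp hg))
        (cmul.comp (computable_negPart.comp hf) (computable_posPart.comp hg))
    · exact csub.comp (cmul.comp (computable_den.comp hf) (computable_den.comp hg))
        (Computable.const 1)
  exact h.of_eq (fun a => (qmul_eq _ _).symm)

theorem comp_qneg {f : α → ℚ} (hf : Computable f) : Computable (fun a => - f a) := by
  have h : Computable (fun a => mkQ (negPart (f a), posPart (f a), (f a).den - 1)) := by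
    refine computable_mkQ.comp (Computable.pair ?_ (Computable.pair ?_ ?_))
    · exact computable_negPart.comp hf
    · exact computable_posPart.comp hf
    · exact csub.comp (computable_den.comp hf) (Computable.const 1)
  exact h.of_eq (fun a => (qneg_eq _).symm)

theorem comp_qsub {f g : α → ℚ} (hf : Computable f) (hg : Computable g) :
    Computable (fun a => f a - g a) :=
  (comp_qadd hf (comp_qneg hg)).of_eq (fun a => by ring)

theorem comp_qinv {f : α → ℚ} (hf : Computable f) : Computable (fun a => (f a)⁻¹) := by
  have beq := (Primrec.beq (α := ℕ)).to_comp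
  have h : Computable (fun a => mkQ (bif posPart (f a) == 0 then 0 else (f a).den,
    bif negPart (f a) == 0 then 0 else (f a).den, (posPart (f a) + negPart (f a)) - 1)) := by
    refine computable_mkQ.comp (Computable.pair ?_ (Computable.pair ?_ ?_))
    · exact Computable.cond (beq.comp (computable_posPart.comp hf) (Computable.const 0))
        (Computable.const 0) (computable_den.comp hf)
    · exact Computable.cond (beq.comp (computable_negPart.comp hf) (Computable.const 0))
        (Computable.const 0) (computable_den.comp hf)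
    · exact csub.comp (cadd.comp (computable_posPart.comp hf) (computable_negPart.comp hf))
        (Computable.const 1)
  exact h.of_eq (fun a => (qinv_eq _).symm)

theorem comp_qdiv {f g : α → ℚ} (hf : Computable f) (hg : Computable g) :
    Computable (fun a => f a / g a) :=
  (comp_qmul hf (comp_qinv hg)).of_eq (fun a => by rw [div_eq_mul_inv])

theorem comp_qcast {f : α → ℕ} (hf : Computable f) : Computable (fun a => (f a : ℚ)) := by
  have h : Computable (fun a => mkQ (f a, 0, 0)) :=
    computable_mkQ.comp (Computable.pair hf (Computable.const (0, 0)))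
  exact h.of_eq (fun a => (qcast_eq _).symm)

theorem comp_qpow {f : α → ℚ} {g : α → ℕ} (hf : Computable f) (hg : Computable g) :
    Computable (fun a => f a ^ g a) := by
  have hh : Computable₂ (fun (a : α) (p : ℕ × ℚ) => p.2 * f a) :=
    comp_qmul (Computable.snd.comp Computable.snd) (hf.comp Computable.fst)
  have h := Computable.nat_rec hg (Computable.const (1 : ℚ)) hh
  refine h.of_eq (fun a => ?_)
  induction g a with
  | zero => simp
  | succ k ih => simp only [pow_succ]; rw [← ih]

/-- `|q| ≤ natBound q`. -/
def natBound (q : ℚ) : ℕ := posPart q + negPart q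

theorem abs_le_natBound (q : ℚ) : |q| ≤ (natBound q : ℚ) := by
  have h1 : |q| = (|q.num| : ℚ) / q.den := by
    conv_lhs => rw [← Rat.num_div_den q]
    rw [abs_div]
    simp
  have h2 : (|q.num| : ℤ) = (natBound q : ℤ) := by
    unfold natBound posPart negPart
    push_cast
    rcases abs_cases q.num with ⟨h, h'⟩ | ⟨h, h'⟩ <;> omega
  have h3 : ((|q.num| : ℤ) : ℚ) = (natBound q : ℚ) := by exact_mod_cast h2
  rw [h1]
  push_cast at h3
  rw [h3]
  have hd : (1 : ℚ) ≤ q.den := by exact_mod_cast q.pos
  exact div_le_self (by positivity) hd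

theorem comp_natBound {f : α → ℚ} (hf : Computable f) : Computable (fun a => natBound (f a)) :=
  cadd.comp (computable_posPart.comp hf) (computable_negPart.comp hf)

theorem nonpos_iff_posPart (q : ℚ) : q ≤ 0 ↔ posPart q = 0 := by
  unfold posPart
  rw [Int.toNat_eq_zero, Rat.num_nonpos]

theorem comp_decide_le {f g : α → ℚ} (hf : Computable f) (hg : Computable g) :
    Computable (fun a => decide (f a ≤ g a)) := by
  have beq := (Primrec.beq (α := ℕ)).to_comp
  have h : Computable (fun a => posPart (f a - g a) == 0) :=
    beq.comp (computable_posPart.comp (comp_qsub hf hg)) (Computable.const 0)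
  refine h.of_eq (fun a => ?_)
  rw [Bool.eq_iff_iff, beq_iff_eq, decide_eq_true_iff, ← nonpos_iff_posPart, sub_nonpos]

end ops

end Crest.Agent.S0170
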