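import Mathlib
import Crest.Prelude.Def_BoxFlow
import Crest.Agent.S0170_RatComp

/-!
# S0170: common definitions (helper file)
-/

set_option autoImplicit false

namespace Crest.Agent.S0170

open Crest.AnalysisR.BoxFlow
open scoped ContDiff

/-- three-space -/
abbrev E3 : Type := Fin 3 → ℝ

/-- A real-valued function on a coded type is *computable* if it has a computable rational
approximation with error `1/(n+1)`. -/
def CompReal {α : Type*} [Primcodable α] (F : α → ℝ) : Prop :=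
  ∃ A : α × ℕ → ℚ, Computable A ∧ ∀ a n, |F a - (A (a, n) : ℝ)| ≤ 1 / ((n : ℝ) + 1)

/-- codes of (list of directions, rational space-time point) -/
abbrev PtCode : Type := List (Fin 4) × (ℚ × (Fin 3 → ℚ))

/-- our working version of `Effective`. -/
def EffField (U : Field) : Prop :=
  (∀ j : Fin 3, CompReal (fun x : PtCode => mixedDeriv x.1 U ((x.2.1 : ℝ), ratPoint x.2.2) j)) ∧
  ∃ bound : List (Fin 4) → ℕ, Computable bound ∧
    ∀ (ds : List (Fin 4)) (p : ℝ × E3) (j : Fin 3), |mixedDeriv ds U p j| ≤ (bound ds : ℝ)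

/-- a good field active only in the open time window `(τ₀, τ₁)`. -/
def GoodField (τ₀ τ₁ : ℚ) (U : Field) : Prop :=
  ContDiff ℝ ∞ U ∧ HasCompactSupport U ∧ EffField U ∧
    (∀ p : ℝ × E3, p.1 ∉ Set.Ioo (τ₀ : ℝ) (τ₁ : ℝ) → U p = 0) ∧ ∀ p : ℝ × E3, spaceDiv U p = 0

/-- `Reach n K f`: in every rational time window inside `[0,1]` there is a good field whose time-one
flow equals `f i` on a neighbourhood of `K i`, for every `i`. -/
def Reach (n : ℕ) (K : Fin n → Set E3) (f : Fin n → E3 → E3) : Prop :=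
  ∀ τ₀ τ₁ : ℚ, 0 ≤ τ₀ → τ₀ < τ₁ → τ₁ ≤ 1 → ∃ (U : Field) (Φ : ℝ → E3 → E3),
    GoodField τ₀ τ₁ U ∧ IsFlow U Φ ∧
      ∀ i, ∃ O : Set E3, IsOpen O ∧ K i ⊆ O ∧ ∀ x ∈ O, Φ 1 x = f i x

/-- the elementary map: add `v₀ + v₁ * x β` to the coordinate `α` (translation if `v₁ = 0`,
shear otherwise). -/
noncomputable def shear (α β : Fin 3) (v₀ v₁ : ℚ) (x : E3) : E3 :=
  Function.update x α (x α + ((v₀ : ℝ) + (v₁ : ℝ) * x β))

end Crest.Agent.S0170
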