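import Mathlib
import Crest.Prelude.Def_BoxFlow
import Crest.Agent.S0170_Defs

/-!
# S0170 (ODE): global solutions of bounded Lipschitz ODEs on three-space (helper file)
-/

set_option autoImplicit false

namespace Crest.Agent.S0170

open Set Filter Topology

/-- global solution of a time-dependent, bounded, uniformly Lipschitz ODE. -/
theorem exists_global_solution_td (v : ℝ → E3 → E3) (C : NNReal) (hL : ∀ t, LipschitzWith C (v t))
    (hc : ∀ x, Continuous (fun t => v t x)) (M : ℝ) (hM : ∀ t x, ‖v t x‖ ≤ M) (x₀ : E3) :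
    ∃ γ : ℝ → E3, γ 0 = x₀ ∧ ∀ s, HasDerivAt γ (v s (γ s)) s := by
  have hM0 : 0 ≤ M := (norm_nonneg _).trans (hM 0 x₀)
  obtain ⟨L, hLdef⟩ : ∃ L : NNReal, (L : ℝ) = M := ⟨⟨M, hM0⟩, rfl⟩
  have key : ∀ N : ℕ, ∃ α : ℝ → E3, α 0 = x₀ ∧
      ∀ t ∈ Ioo (-((N : ℝ) + 1)) ((N : ℝ) + 1), HasDerivAt α (v t (α t)) t := by
    intro N
    have hN : (0 : ℝ) ≤ (N : ℝ) + 1 := by positivity
    have h0 : (0 : ℝ) ∈ Icc (-((N : ℝ) + 1)) ((N : ℝ) + 1) := ⟨by linarith, hN⟩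
    have hPL : IsPicardLindelof v (tmin := -((N : ℝ) + 1)) (tmax := (N : ℝ) + 1) ⟨0, h0⟩ x₀
        (L * ((N : NNReal) + 1)) 0 L C :=
      { lipschitzOnWith := fun t _ => (hL t).lipschitzOnWith
        continuousOn := fun x _ => (hc x).continuousOn
        norm_le := fun t _ x _ => by rw [hLdef]; exact hM t x
        mul_max_le := by
          simp }
    obtain ⟨α, hα0, hα⟩ := hPL.exists_eq_forall_mem_Icc_hasDerivWithinAt₀
    exact ⟨α, hα0, fun t ht => (hα t (Ioo_subset_Icc_self ht)).hasDerivAt (Icc_mem_nhds ht.1 ht.2)⟩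
  choose α hα0 hα using key
  have agree : ∀ N N' : ℕ, N ≤ N' → EqOn (α N) (α N') (Ioo (-((N : ℝ) + 1)) ((N : ℝ) + 1)) := by
    intro N N' hNN'
    have hN : (0 : ℝ) < (N : ℝ) + 1 := by positivity
    have hcast : (N : ℝ) ≤ (N' : ℝ) := by exact_mod_cast hNN'
    exact ODE_solution_unique_of_mem_Ioo (v := v) (s := fun _ => univ) (K := C) (t₀ := 0)
      (fun t _ => (hL t).lipschitzOnWith) ⟨by linarith, hN⟩
      (fun t ht => ⟨hα N t ht, trivial⟩)
      (fun t ht => ⟨hα N' t ⟨by linarith [ht.1], by linarith [ht.2]⟩, trivial⟩)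
      (by rw [hα0, hα0])
  have hγ : ∀ (N : ℕ) (t : ℝ), |t| < (N : ℝ) + 1 → α ⌈|t|⌉₊ t = α N t := by
    intro N t ht
    have h1 : |t| < ((⌈|t|⌉₊ : ℕ) : ℝ) + 1 := by
      have := Nat.le_ceil |t|
      linarith
    rw [abs_lt] at ht h1
    rcases le_total ⌈|t|⌉₊ N with h | h
    · exact agree _ _ h ⟨h1.1, h1.2⟩
    · exact (agree _ _ h ⟨ht.1, ht.2⟩).symm
  refine ⟨fun t => α ⌈|t|⌉₊ t, by simp [hα0], fun s => ?_⟩
  obtain ⟨N, hN⟩ := exists_nat_gt |s|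
  have hs : |s| < (N : ℝ) + 1 := by linarith
  have hev : (fun t => α ⌈|t|⌉₊ t) =ᶠ[𝓝 s] α N := by
    have hopen : IsOpen {t : ℝ | |t| < (N : ℝ) + 1} := isOpen_lt continuous_abs continuous_const
    filter_upwards [hopen.mem_nhds hs] with t ht
    exact hγ N t ht
  have hd := hα N s (by rw [abs_lt] at hs; exact ⟨hs.1, hs.2⟩)
  simp only
  rw [hγ N s hs]
  exact hd.congr_of_eventuallyEq hev

theorem exists_global_solution (W : E3 → E3) (C : NNReal) (hW : LipschitzWith C W)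
    (M : ℝ) (hM : ∀ x, ‖W x‖ ≤ M) (x₀ : E3) :
    ∃ γ : ℝ → E3, γ 0 = x₀ ∧ ∀ s, HasDerivAt γ (W (γ s)) s :=
  exists_global_solution_td (fun _ => W) C (fun _ => hW) (fun _ => continuous_const) M
    (fun _ x => hM x) x₀

/-- uniqueness of global solutions (time-dependent, uniformly Lipschitz). -/
theorem global_solution_unique (v : ℝ → E3 → E3) (C : NNReal) (hL : ∀ t, LipschitzWith C (v t))
    (γ₁ γ₂ : ℝ → E3) (h₁ : ∀ s, HasDerivAt γ₁ (v s (γ₁ s)) s)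
    (h₂ : ∀ s, HasDerivAt γ₂ (v s (γ₂ s)) s) (t₀ : ℝ) (h0 : γ₁ t₀ = γ₂ t₀) : γ₁ = γ₂ :=
  ODE_solution_unique_univ (v := v) (s := fun _ => univ) (K := C) (t₀ := t₀)
    (fun t => (hL t).lipschitzOnWith) (fun t => ⟨h₁ t, trivial⟩) (fun t => ⟨h₂ t, trivial⟩) h0

end Crest.Agent.S0170
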