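import Mathlib

/-!
# S0170, module (FD): finite differences approximate derivatives
-/

set_option autoImplicit false

namespace Crest.Agent.S0170

open scoped ContDiff
open Finset

/-- mean value theorem for iterated forward differences. -/
theorem fwdDiff_iter_eq_iteratedDeriv (h : ℝ) (hh : 0 < h) (m : ℕ) :
    ∀ (f : ℝ → ℝ), ContDiff ℝ ∞ f → ∀ x : ℝ,
      ∃ ξ : ℝ, x ≤ ξ ∧ ξ ≤ x + m * h ∧ (fwdDiff h)^[m] f x = h ^ m * iteratedDeriv m f ξ := by
  induction m with
  | zero =>
    intro f _ x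
    exact ⟨x, le_refl _, by simp, by simp⟩
  | succ m ih =>
    intro f hf x
    have hg : ContDiff ℝ ∞ (fwdDiff h f) := by
      unfold fwdDiff
      exact (hf.comp (contDiff_id.add contDiff_const)).sub hf
    obtain ⟨ξ, h1, h2, h3⟩ := ih (fwdDiff h f) hg x
    -- iteratedDeriv m (fwdDiff h f) ξ = iteratedDeriv m f (ξ + h) - iteratedDeriv m f ξ
    have hshift : iteratedDeriv m (fwdDiff h f) ξ
        = iteratedDeriv m f (ξ + h) - iteratedDeriv m f ξ := by
      have e1 : fwdDiff h f = (fun y => f (y + h)) - f := by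
        funext y; simp [fwdDiff]
      rw [e1]
      have hc1 : ContDiffAt ℝ m (fun y => f (y + h)) ξ :=
        ((hf.comp (contDiff_id.add contDiff_const)).of_le (by exact_mod_cast le_top)).contDiffAt
      have hc2 : ContDiffAt ℝ m f ξ := (hf.of_le (by exact_mod_cast le_top)).contDiffAt
      rw [iteratedDeriv_sub hc1 hc2, iteratedDeriv_comp_add_const]
    -- mean value theorem for iteratedDeriv m f on [ξ, ξ + h]
    have hdiff : Differentiable ℝ (iteratedDeriv m f) :=
      hf.differentiable_iteratedDeriv m (by exact_mod_cast WithTop.coe_lt_top _)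
    obtain ⟨c, hc, hc'⟩ := exists_deriv_eq_slope (iteratedDeriv m f) (show ξ < ξ + h by linarith)
      hdiff.continuous.continuousOn hdiff.differentiableOn
    refine ⟨c, by linarith [hc.1], ?_, ?_⟩
    · have := hc.2
      push_cast
      linarith
    · rw [Function.iterate_succ_apply, h3, hshift, iteratedDeriv_succ, hc']
      have e : ξ + h - ξ = h := by ring
      rw [e, pow_succ]
      field_simp

theorem fd_approx (f : ℝ → ℝ) (hf : ContDiff ℝ ∞ f) (m : ℕ) (B : ℝ)
    (hB : ∀ x, |iteratedDeriv (m + 1) f x| ≤ B) (h : ℝ) (hh : 0 < h) (x : ℝ) :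
    |(∑ k ∈ Finset.range (m + 1), ((-1 : ℝ) ^ (m - k) * (m.choose k : ℝ)) * f (x + k * h)) / h ^ m
        - iteratedDeriv m f x| ≤ m * h * B := by
  obtain ⟨ξ, h1, h2, h3⟩ := fwdDiff_iter_eq_iteratedDeriv h hh m f hf x
  have hsum : (∑ k ∈ Finset.range (m + 1), ((-1 : ℝ) ^ (m - k) * (m.choose k : ℝ)) * f (x + k * h))
      = (fwdDiff h)^[m] f x := by
    rw [fwdDiff_iter_eq_sum_shift]
    refine Finset.sum_congr rfl fun k _ => ?_
    simp [zsmul_eq_mul]
  rw [hsum, h3, mul_div_cancel_left₀ _ (pow_ne_zero _ hh.ne')]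
  have hB0 : 0 ≤ B := le_trans (abs_nonneg _) (hB x)
  have hdiff : Differentiable ℝ (iteratedDeriv m f) :=
    hf.differentiable_iteratedDeriv m (by exact_mod_cast WithTop.coe_lt_top _)
  have hlip : ∀ y, ‖deriv (iteratedDeriv m f) y‖ ≤ B := by
    intro y
    rw [← iteratedDeriv_succ]
    exact hB y
  have := Convex.norm_image_sub_le_of_norm_deriv_le (s := Set.univ) (f := iteratedDeriv m f)
    (fun y _ => hdiff y) (fun y _ => hlip y) convex_univ (Set.mem_univ x) (Set.mem_univ ξ)
  rw [Real.norm_eq_abs, Real.norm_eq_abs, abs_of_nonneg (by linarith : 0 ≤ ξ - x)] at this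
  calc |iteratedDeriv m f ξ - iteratedDeriv m f x| ≤ B * (ξ - x) := this
    _ ≤ B * (m * h) := by apply mul_le_mul_of_nonneg_left _ hB0; linarith
    _ = m * h * B := by ring

end Crest.Agent.S0170
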