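import Mathlib
import Crest.Agent.S0170_Defs

/-!
# S0170: closure properties of `CompReal` (helper file)
-/

set_option autoImplicit false

namespace Crest.Agent.S0170

variable {α β : Type*} [Primcodable α] [Primcodable β]

theorem cnat_mul : Computable₂ ((· * ·) : ℕ → ℕ → ℕ) := Primrec.nat_mul.to_comp
theorem cnat_add : Computable₂ ((· + ·) : ℕ → ℕ → ℕ) := Primrec.nat_add.to_comp
theorem cnat_sub : Computable₂ ((· - ·) : ℕ → ℕ → ℕ) := Primrec.nat_sub.to_comp

theorem CompReal.of_rat {f : α → ℚ} (hf : Computable f) : CompReal (fun a => (f a : ℝ)) :=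
  ⟨fun x => f x.1, hf.comp Computable.fst, fun a n => by
    simp only [sub_self, abs_zero]; positivity⟩

theorem CompReal.const (c : ℚ) : CompReal (fun _ : α => (c : ℝ)) :=
  CompReal.of_rat (Computable.const c)

theorem CompReal.of_eq {F G : α → ℝ} (hF : CompReal F) (h : ∀ a, F a = G a) : CompReal G := by
  have : F = G := funext h
  rwa [← this]

theorem CompReal.comp {F : β → ℝ} (hF : CompReal F) {g : α → β} (hg : Computable g) :
    CompReal (fun a => F (g a)) := by
  obtain ⟨A, hA, h⟩ := hF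
  exact ⟨fun x => A (g x.1, x.2), hA.comp (Computable.pair (hg.comp Computable.fst) Computable.snd),
    fun a n => h (g a) n⟩

theorem inv_two_mul_succ (n : ℕ) : 1 / (((2 * n + 1 : ℕ) : ℝ) + 1) = (1 / ((n : ℝ) + 1)) / 2 := by
  push_cast
  field_simp
  ring

theorem comp_two_mul_succ {f : α → ℕ} (hf : Computable f) : Computable (fun a => 2 * f a + 1) :=
  (Primrec.nat_double_succ.to_comp).comp hf

theorem CompReal.add {F G : α → ℝ} (hF : CompReal F) (hG : CompReal G) :
    CompReal (fun a => F a + G a) := by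
  obtain ⟨A, hA, h⟩ := hF
  obtain ⟨B, hB, h'⟩ := hG
  refine ⟨fun x => A (x.1, 2 * x.2 + 1) + B (x.1, 2 * x.2 + 1), ?_, ?_⟩
  · have hx : Computable (fun x : α × ℕ => (x.1, 2 * x.2 + 1)) :=
      Computable.pair Computable.fst (comp_two_mul_succ Computable.snd)
    exact comp_qadd (hA.comp hx) (hB.comp hx)
  · intro a n
    have h1 := h a (2 * n + 1)
    have h2 := h' a (2 * n + 1)
    rw [inv_two_mul_succ] at h1 h2
    push_cast
    have : F a + G a - ((A (a, 2 * n + 1) : ℝ) + (B (a, 2 * n + 1) : ℝ))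
        = (F a - A (a, 2 * n + 1)) + (G a - B (a, 2 * n + 1)) := by ring
    rw [this]
    refine (abs_add_le _ _).trans ?_
    linarith

theorem CompReal.neg {F : α → ℝ} (hF : CompReal F) : CompReal (fun a => - F a) := by
  obtain ⟨A, hA, h⟩ := hF
  refine ⟨fun x => - A x, comp_qneg hA, fun a n => ?_⟩
  have := h a n
  push_cast
  rw [show - F a - - (A (a, n) : ℝ) = -(F a - A (a, n)) by ring, abs_neg]
  exact this

theorem CompReal.sub {F G : α → ℝ} (hF : CompReal F) (hG : CompReal G) :
    CompReal (fun a => F a - G a) :=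
  (hF.add hG.neg).of_eq (fun a => by ring)

/-- limit closure. -/
theorem CompReal.of_approx {F : α → ℝ} {G : α × ℕ → ℝ} (hG : CompReal G)
    (h : ∀ a n, |F a - G (a, n)| ≤ 1 / ((n : ℝ) + 1)) : CompReal F := by
  obtain ⟨A, hA, hA'⟩ := hG
  refine ⟨fun x => A ((x.1, 2 * x.2 + 1), 2 * x.2 + 1), ?_, ?_⟩
  · have h2 : Computable (fun x : α × ℕ => 2 * x.2 + 1) := comp_two_mul_succ Computable.snd
    exact hA.comp (Computable.pair (Computable.pair Computable.fst h2) h2)
  · intro a n
    have h1 := h a (2 * n + 1)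
    have h2 := hA' (a, 2 * n + 1) (2 * n + 1)
    rw [inv_two_mul_succ] at h1 h2
    have : F a - (A ((a, 2 * n + 1), 2 * n + 1) : ℝ)
        = (F a - G (a, 2 * n + 1)) + (G (a, 2 * n + 1) - A ((a, 2 * n + 1), 2 * n + 1)) := by ring
    rw [this]
    refine (abs_add_le _ _).trans ?_
    linarith

theorem abs_le_natBound_real (q : ℚ) : |(q : ℝ)| ≤ (natBound q : ℝ) := by
  have := abs_le_natBound q
  exact_mod_cast this

theorem CompReal.mul {F G : α → ℝ} (hF : CompReal F) (hG : CompReal G) :
    CompReal (fun a => F a * G a) := by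
  obtain ⟨A, hA, h⟩ := hF
  obtain ⟨B, hB, h'⟩ := hG
  let N : α × ℕ → ℕ := fun x => (x.2 + 1) * (natBound (A (x.1, 0)) + natBound (B (x.1, 0)) + 3)
  have hN : Computable N := by
    have h0 : Computable (fun x : α × ℕ => (x.1, 0)) :=
      Computable.pair Computable.fst (Computable.const 0)
    exact cnat_mul.comp (Computable.succ.comp Computable.snd)
      (cnat_add.comp (cnat_add.comp (comp_natBound (hA.comp h0)) (comp_natBound (hB.comp h0)))
        (Computable.const 3))
  refine ⟨fun x => A (x.1, N x) * B (x.1, N x), ?_, ?_⟩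
  · have hx : Computable (fun x : α × ℕ => (x.1, N x)) := Computable.pair Computable.fst hN
    exact comp_qmul (hA.comp hx) (hB.comp hx)
  · intro a n
    set bF : ℝ := (natBound (A (a, 0)) : ℝ) with hbF
    set bG : ℝ := (natBound (B (a, 0)) : ℝ) with hbG
    have hbF0 : 0 ≤ bF := Nat.cast_nonneg _
    have hbG0 : 0 ≤ bG := Nat.cast_nonneg _
    have hNval : ((N (a, n) : ℕ) : ℝ) = ((n : ℝ) + 1) * (bF + bG + 3) := by
      simp only [N]; push_cast; ring
    have hFb : |F a| ≤ bF + 1 := by
      have h1 := h a 0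
      have h2 := abs_le_natBound_real (A (a, 0))
      simp only [Nat.cast_zero, zero_add, div_one] at h1
      have : |F a| ≤ |F a - A (a, 0)| + |(A (a, 0) : ℝ)| := by
        have := abs_add_le (F a - A (a, 0)) (A (a, 0) : ℝ)
        simpa using this
      linarith
    have hGb : |G a| ≤ bG + 1 := by
      have h1 := h' a 0
      have h2 := abs_le_natBound_real (B (a, 0))
      simp only [Nat.cast_zero, zero_add, div_one] at h1
      have : |G a| ≤ |G a - B (a, 0)| + |(B (a, 0) : ℝ)| := by
        have := abs_add_le (G a - B (a, 0)) (B (a, 0) : ℝ)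
        simpa using this
      linarith
    set ε : ℝ := 1 / (((N (a, n) : ℕ) : ℝ) + 1) with hε
    have hε0 : 0 ≤ ε := by positivity
    have hε1 : ε ≤ 1 := by
      rw [hε, div_le_one (by positivity)]
      have : (0 : ℝ) ≤ ((N (a, n) : ℕ) : ℝ) := Nat.cast_nonneg _
      linarith
    have h1 : |F a - A (a, N (a, n))| ≤ ε := h a _
    have h2 : |G a - B (a, N (a, n))| ≤ ε := h' a _
    have hBb : |(B (a, N (a, n)) : ℝ)| ≤ bG + 2 := by
      have : |(B (a, N (a, n)) : ℝ)| ≤ |G a - B (a, N (a, n))| + |G a| := by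
        have := abs_sub_abs_le_abs_sub (B (a, N (a, n)) : ℝ) (G a)
        rw [abs_sub_comm] at this
        linarith
      linarith
    have key : F a * G a - (A (a, N (a, n)) : ℝ) * (B (a, N (a, n)) : ℝ)
        = F a * (G a - B (a, N (a, n))) + (F a - A (a, N (a, n))) * B (a, N (a, n)) := by ring
    push_cast
    rw [key]
    refine (abs_add_le _ _).trans ?_
    rw [abs_mul, abs_mul]
    have e1 : |F a| * |G a - B (a, N (a, n))| ≤ (bF + 1) * ε :=
      mul_le_mul hFb h2 (abs_nonneg _) (by linarith)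
    have e2 : |F a - A (a, N (a, n))| * |(B (a, N (a, n)) : ℝ)| ≤ ε * (bG + 2) :=
      mul_le_mul h1 hBb (abs_nonneg _) hε0
    have e3 : (bF + bG + 3) * ε ≤ 1 / ((n : ℝ) + 1) := by
      rw [hε, hNval, mul_one_div, div_le_div_iff₀ (by positivity) (by positivity)]
      nlinarith [hbF0, hbG0, (Nat.cast_nonneg n : (0 : ℝ) ≤ n)]
    nlinarith

theorem CompReal.cond {F G : α → ℝ} {c : α → Bool} (hc : Computable c) (hF : CompReal F)
    (hG : CompReal G) : CompReal (fun a => bif c a then F a else G a) := by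
  obtain ⟨A, hA, h⟩ := hF
  obtain ⟨B, hB, h'⟩ := hG
  refine ⟨fun x => bif c x.1 then A x else B x,
    Computable.cond (hc.comp Computable.fst) hA hB, fun a n => ?_⟩
  cases hca : c a
  · simpa [hca] using h' a n
  · simpa [hca] using h a n

/-- computable finite sums of rationals. -/
theorem comp_qsum {f : α × ℕ → ℚ} {N : α → ℕ} (hf : Computable f) (hN : Computable N) :
    Computable (fun a => ∑ i ∈ Finset.range (N a), f (a, i)) := by
  have hh : Computable₂ (fun (a : α) (p : ℕ × ℚ) => p.2 + f (a, p.1)) :=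
    comp_qadd (Computable.snd.comp Computable.snd)
      (hf.comp (Computable.pair Computable.fst (Computable.fst.comp Computable.snd)))
  have h := Computable.nat_rec hN (Computable.const (0 : ℚ)) hh
  refine h.of_eq (fun a => ?_)
  induction N a with
  | zero => simp
  | succ k ih => rw [Finset.sum_range_succ, ← ih]

theorem CompReal.sum {F : α × ℕ → ℝ} {N : α → ℕ} (hF : CompReal F) (hN : Computable N) :
    CompReal (fun a => ∑ i ∈ Finset.range (N a), F (a, i)) := by
  obtain ⟨A, hA, h⟩ := hF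
  refine ⟨fun x => ∑ i ∈ Finset.range (N x.1), A ((x.1, i), N x.1 * (x.2 + 1)), ?_, ?_⟩
  · have h1 : Computable (fun y : (α × ℕ) × ℕ => A ((y.1.1, y.2), N y.1.1 * (y.1.2 + 1))) := by
      refine hA.comp (Computable.pair (Computable.pair (Computable.fst.comp Computable.fst)
        Computable.snd) ?_)
      exact cnat_mul.comp (hN.comp (Computable.fst.comp Computable.fst))
        (Computable.succ.comp (Computable.snd.comp Computable.fst))
    exact comp_qsum (f := fun y : (α × ℕ) × ℕ => A ((y.1.1, y.2), N y.1.1 * (y.1.2 + 1)))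
      (N := fun x : α × ℕ => N x.1) h1 (hN.comp Computable.fst)
  · intro a n
    push_cast
    rw [← Finset.sum_sub_distrib]
    refine (Finset.abs_sum_le_sum_abs _ _).trans ?_
    have hb : ∀ i ∈ Finset.range (N a), |F (a, i) - (A ((a, i), N a * (n + 1)) : ℝ)|
        ≤ 1 / (((N a * (n + 1) : ℕ) : ℝ) + 1) := fun i _ => h (a, i) _
    refine (Finset.sum_le_sum hb).trans ?_
    rw [Finset.sum_const, Finset.card_range, nsmul_eq_mul, mul_one_div,
      div_le_div_iff₀ (by positivity) (by positivity)]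
    push_cast
    nlinarith [(Nat.cast_nonneg (N a) : (0 : ℝ) ≤ N a), (Nat.cast_nonneg n : (0 : ℝ) ≤ n)]

/-- reciprocal, given a uniform lower bound `1/K`. -/
theorem CompReal.inv {F : α → ℝ} (hF : CompReal F) (K : ℕ) (hK : 0 < K)
    (hlow : ∀ a, 1 / (K : ℝ) ≤ F a) : CompReal (fun a => (F a)⁻¹) := by
  obtain ⟨A, hA, h⟩ := hF
  refine ⟨fun x => (A (x.1, 2 * K * K * (x.2 + 1)))⁻¹, ?_, ?_⟩
  · refine comp_qinv (hA.comp (Computable.pair Computable.fst ?_))
    exact cnat_mul.comp (Computable.const (2 * K * K)) (Computable.succ.comp Computable.snd)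
  · intro a n
    have hKr : (0 : ℝ) < K := by exact_mod_cast hK
    have hK1 : (1 : ℝ) ≤ K := by exact_mod_cast hK
    set N := 2 * K * K * (n + 1) with hN
    have hNr : ((N : ℕ) : ℝ) = 2 * K * K * ((n : ℝ) + 1) := by rw [hN]; push_cast; ring
    have h1 := h a N
    have hn0 : (0 : ℝ) ≤ n := Nat.cast_nonneg n
    have hsmall : 1 / (((N : ℕ) : ℝ) + 1) ≤ 1 / (2 * K * K * ((n : ℝ) + 1)) := by
      rw [hNr]
      apply one_div_le_one_div_of_le (by positivity)
      linarith
    have hsmall2 : 1 / (2 * K * K * ((n : ℝ) + 1)) ≤ 1 / (2 * (K : ℝ)) := by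
      apply one_div_le_one_div_of_le (by positivity)
      have h5 : (1 : ℝ) ≤ K * ((n : ℝ) + 1) := by nlinarith
      nlinarith
    have hF0 : 0 < F a := lt_of_lt_of_le (by positivity) (hlow a)
    have hAlow : 1 / (2 * (K : ℝ)) ≤ (A (a, N) : ℝ) := by
      have := abs_le.1 h1
      have h3 : 1 / (K : ℝ) = 1 / (2 * (K : ℝ)) + 1 / (2 * (K : ℝ)) := by field_simp; ring
      have h4 := hlow a
      linarith [this.2]
    have hA0 : 0 < (A (a, N) : ℝ) := lt_of_lt_of_le (by positivity) hAlow
    push_cast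
    rw [inv_sub_inv hF0.ne' hA0.ne', abs_div, abs_sub_comm, abs_of_pos (mul_pos hF0 hA0),
      div_le_iff₀ (mul_pos hF0 hA0)]
    have hprod : 1 / (K : ℝ) * (1 / (2 * (K : ℝ))) ≤ F a * A (a, N) :=
      mul_le_mul (hlow a) hAlow (by positivity) hF0.le
    calc |F a - A (a, N)| ≤ 1 / (2 * K * K * ((n : ℝ) + 1)) := h1.trans hsmall
      _ = 1 / ((n : ℝ) + 1) * (1 / (K : ℝ) * (1 / (2 * (K : ℝ)))) := by field_simp
      _ ≤ 1 / ((n : ℝ) + 1) * (F a * A (a, N)) :=
          mul_le_mul_of_nonneg_left hprod (by positivity)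

end Crest.Agent.S0170
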