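import Mathlib
import Crest.Agent.S0170_CompReal

/-!
# S0170: the values of `expNegInvGlue` and `Real.smoothTransition` at rationals are computable
-/

set_option autoImplicit false

namespace Crest.Agent.S0170

theorem exp_neg_approx (y : ℝ) (hy : 0 ≤ y) (N : ℕ) (hN : 0 < N) (hyN : y ≤ N) :
    |Real.exp (-y) - (1 - y / N) ^ N| ≤ y ^ 2 / N := by
  have hNr : (0 : ℝ) < N := by exact_mod_cast hN
  have h1 : (1 - y / N) ^ N ≤ Real.exp (-y) := Real.one_sub_div_pow_le_exp_neg hyN
  have hq : 0 ≤ 1 - y / N := by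
    rw [sub_nonneg, div_le_one hNr]; exact hyN
  have h2 : (1 + y / N) ^ N ≤ Real.exp y := by
    have : 1 + y / N ≤ Real.exp (y / N) := by
      have := Real.add_one_le_exp (y / N); linarith
    calc (1 + y / N) ^ N ≤ (Real.exp (y / N)) ^ N :=
          pow_le_pow_left₀ (by positivity) this N
      _ = Real.exp y := by
          rw [← Real.exp_nat_mul]; congr 1; field_simp
  have h3 : 1 - y ^ 2 / N ≤ (1 - y / N) ^ N * (1 + y / N) ^ N := by
    rw [← mul_pow]
    have hb := one_add_mul_le_pow (a := -(y / N) ^ 2) (by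
      have : (y / N) ^ 2 ≤ 1 := by
        have h0 : 0 ≤ y / N := by positivity
        have h1 : y / N ≤ 1 := by rw [div_le_one hNr]; exact hyN
        nlinarith
      linarith) N
    have e1 : (1 - y / N) * (1 + y / N) = 1 + -(y / N) ^ 2 := by ring
    have e2 : 1 + (N : ℝ) * -(y / N) ^ 2 = 1 - y ^ 2 / N := by field_simp; ring
    rw [e1, ← e2]
    exact hb
  have h4 : 1 - y ^ 2 / N ≤ (1 - y / N) ^ N * Real.exp y :=
    h3.trans (mul_le_mul_of_nonneg_left h2 (pow_nonneg hq N))
  have h5 : (1 - y ^ 2 / N) * Real.exp (-y) ≤ (1 - y / N) ^ N := by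
    have := mul_le_mul_of_nonneg_right h4 (Real.exp_pos (-y)).le
    rwa [mul_assoc, ← Real.exp_add, add_neg_cancel, Real.exp_zero, mul_one] at this
  have h6 : Real.exp (-y) ≤ 1 := by
    rw [Real.exp_le_one_iff]; linarith
  have h7 : 0 ≤ y ^ 2 / N := by positivity
  rw [abs_of_nonneg (by linarith)]
  nlinarith [Real.exp_pos (-y)]

/-- the rational approximation to `expNegInvGlue q`. -/
def glueApprox (x : ℚ × ℕ) : ℚ :=
  bif decide (x.1 ≤ 0) then 0 else
    (1 - x.1⁻¹ / (((natBound x.1⁻¹ * natBound x.1⁻¹ + natBound x.1⁻¹ + 1) * (x.2 + 1) : ℕ) : ℚ)) ^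
      ((natBound x.1⁻¹ * natBound x.1⁻¹ + natBound x.1⁻¹ + 1) * (x.2 + 1))

theorem computable_glueApprox : Computable glueApprox := by
  unfold glueApprox
  have hy : Computable (fun x : ℚ × ℕ => x.1⁻¹) := comp_qinv Computable.fst
  have hb : Computable (fun x : ℚ × ℕ => natBound x.1⁻¹) := comp_natBound hy
  have hN : Computable (fun x : ℚ × ℕ =>
      (natBound x.1⁻¹ * natBound x.1⁻¹ + natBound x.1⁻¹ + 1) * (x.2 + 1)) :=
    cnat_mul.comp (Computable.succ.comp (cnat_add.comp (cnat_mul.comp hb hb) hb))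
      (Computable.succ.comp Computable.snd)
  refine Computable.cond (comp_decide_le Computable.fst (Computable.const 0)) (Computable.const 0) ?_
  exact comp_qpow (comp_qsub (Computable.const 1) (comp_qdiv hy (comp_qcast hN))) hN

theorem compReal_glue : CompReal (fun q : ℚ => expNegInvGlue (q : ℝ)) := by
  refine ⟨glueApprox, computable_glueApprox, fun q n => ?_⟩
  unfold glueApprox
  by_cases hq : q ≤ 0
  · have hq' : (q : ℝ) ≤ 0 := by exact_mod_cast hq
    simp only [hq, decide_true, cond_true, expNegInvGlue.zero_of_nonpos hq', Rat.cast_zero,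
      sub_self, abs_zero]
    positivity
  · have hq0 : 0 < q := not_le.1 hq
    have hq' : ¬ (q : ℝ) ≤ 0 := by exact_mod_cast hq
    simp only [hq, decide_false, cond_false]
    set b := natBound q⁻¹ with hb
    set N := (b * b + b + 1) * (n + 1) with hN
    have hy0 : (0 : ℝ) ≤ ((q⁻¹ : ℚ) : ℝ) := by
      have : (0 : ℚ) ≤ q⁻¹ := inv_nonneg.2 hq0.le
      exact_mod_cast this
    have hyb : ((q⁻¹ : ℚ) : ℝ) ≤ b := by
      have := abs_le_natBound_real q⁻¹
      exact (le_abs_self _).trans this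
    have hbr : (0 : ℝ) ≤ b := Nat.cast_nonneg b
    have hnr : (0 : ℝ) ≤ n := Nat.cast_nonneg n
    have hNr : ((N : ℕ) : ℝ) = ((b : ℝ) * b + b + 1) * ((n : ℝ) + 1) := by
      rw [hN]; push_cast; ring
    have hNpos : 0 < N := by rw [hN]; positivity
    have hyN : ((q⁻¹ : ℚ) : ℝ) ≤ N := by
      rw [hNr]; nlinarith
    have h := exp_neg_approx _ hy0 N hNpos hyN
    have e : expNegInvGlue (q : ℝ) = Real.exp (-((q⁻¹ : ℚ) : ℝ)) := by
      simp [expNegInvGlue, hq']
    rw [e]
    push_cast at h ⊢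
    refine h.trans ?_
    have hNr' : (0 : ℝ) < N := by exact_mod_cast hNpos
    rw [div_le_div_iff₀ hNr' (by positivity), hNr]
    have hyb' : ((q : ℝ)⁻¹) ≤ b := by push_cast at hyb; exact hyb
    have hy0' : (0 : ℝ) ≤ (q : ℝ)⁻¹ := by push_cast at hy0; exact hy0
    have : ((q : ℝ)⁻¹) ^ 2 ≤ (b : ℝ) * b := by nlinarith
    nlinarith

theorem glue_denom_lower (x : ℝ) : 1 / ((8 : ℕ) : ℝ) ≤ expNegInvGlue x + expNegInvGlue (1 - x) := by
  have h2 : 1 / ((8 : ℕ) : ℝ) ≤ expNegInvGlue (1 / 2) := by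
    have : expNegInvGlue (1 / 2) = Real.exp (-2) := by
      simp [expNegInvGlue]
    rw [this, Real.exp_neg]
    have h3 : Real.exp 2 ≤ 8 := by
      have := Real.exp_one_lt_d9
      have e : Real.exp 2 = Real.exp 1 * Real.exp 1 := by rw [← Real.exp_add]; norm_num
      rw [e]
      have hp := Real.exp_pos 1
      nlinarith
    rw [one_div]
    push_cast
    exact inv_anti₀ (Real.exp_pos 2) h3
  rcases le_total (1 / 2) x with h | h
  · have := expNegInvGlue.monotone h
    have := expNegInvGlue.nonneg (1 - x)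
    linarith
  · have : expNegInvGlue (1 / 2) ≤ expNegInvGlue (1 - x) := expNegInvGlue.monotone (by linarith)
    have := expNegInvGlue.nonneg x
    linarith

theorem compReal_sigma : CompReal (fun q : ℚ => Real.smoothTransition (q : ℝ)) := by
  have h1 : CompReal (fun q : ℚ => expNegInvGlue (q : ℝ)) := compReal_glue
  have h2 : CompReal (fun q : ℚ => expNegInvGlue (1 - (q : ℝ))) := by
    have := compReal_glue.comp (comp_qsub (Computable.const (1 : ℚ)) (Computable.id (α := ℚ)))
    refine this.of_eq (fun q => ?_)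
    simp
  have h3 := (h1.add h2).inv 8 (by norm_num) (fun q => glue_denom_lower _)
  refine (h1.mul h3).of_eq (fun q => ?_)
  rw [Real.smoothTransition, div_eq_mul_inv]

end Crest.Agent.S0170
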