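import Mathlib

/-!
# S0170, module (SB): explicit primitive recursive bounds for all derivatives of the smooth step
-/

set_option autoImplicit false

namespace Crest.Agent.S0170

open scoped ContDiff Nat
open Finset Polynomial

/-- `x ↦ x⁻ᵏ e^{-1/x}` (zero for `x ≤ 0`). -/
noncomputable def ek (k : ℕ) (x : ℝ) : ℝ := (x⁻¹) ^ k * expNegInvGlue x

theorem ek_eq_poly (k : ℕ) :
    ek k = fun x => ((X : ℝ[X]) ^ k).eval x⁻¹ * expNegInvGlue x := by
  funext x; simp [ek]

theorem ek_contDiff (k : ℕ) : ContDiff ℝ ∞ (ek k) := by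
  rw [ek_eq_poly]
  exact expNegInvGlue.contDiff_polynomial_eval_inv_mul _

theorem ek_zero : ek 0 = expNegInvGlue := by
  funext x; simp [ek]

theorem ek_deriv (k : ℕ) : deriv (ek k) = fun x => ek (k + 2) x - k * ek (k + 1) x := by
  funext x
  have h := (expNegInvGlue.hasDerivAt_polynomial_eval_inv_mul ((X : ℝ[X]) ^ k) x).deriv
  rw [← ek_eq_poly] at h
  rw [h]
  cases k with
  | zero => simp [ek]
  | succ k =>
    simp only [ek, derivative_X_pow, eval_mul, eval_pow, eval_X, eval_sub,
      Nat.add_sub_cancel, map_natCast, eval_natCast]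
    ring

theorem abs_ek_le (k : ℕ) (x : ℝ) : |ek k x| ≤ (k ! : ℝ) := by
  rcases le_or_gt x 0 with hx | hx
  · simp [ek, expNegInvGlue.zero_of_nonpos hx]
  · have hy : 0 < x⁻¹ := inv_pos.2 hx
    have h1 : expNegInvGlue x = Real.exp (-x⁻¹) := by simp [expNegInvGlue, hx.not_ge]
    have h2 := Real.pow_div_factorial_le_exp x⁻¹ hy.le k
    have hf : (0 : ℝ) < (k ! : ℝ) := by exact_mod_cast Nat.factorial_pos k
    rw [ek, h1, abs_of_nonneg (by positivity), Real.exp_neg]
    rw [div_le_iff₀ hf] at h2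
    rw [← div_eq_mul_inv, div_le_iff₀ (Real.exp_pos _)]
    linarith

theorem abs_iteratedDeriv_ek_le (m : ℕ) : ∀ (k : ℕ) (x : ℝ),
    |iteratedDeriv m (ek k) x| ≤ ((2 ^ m * (k + 2 * m)! : ℕ) : ℝ) := by
  induction m with
  | zero => intro k x; simpa using abs_ek_le k x
  | succ m ih =>
    intro k x
    have hc : ∀ j, ContDiffAt ℝ m (ek j) x := fun j =>
      ((ek_contDiff j).of_le (by exact_mod_cast le_top)).contDiffAt
    have hc' : ContDiffAt ℝ m (fun y => (k : ℝ) * ek (k + 1) y) x := contDiffAt_const.mul (hc _)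
    rw [iteratedDeriv_succ', ek_deriv, iteratedDeriv_fun_sub (hc _) hc',
      iteratedDeriv_const_mul_field]
    have h1 := ih (k + 2) x
    have h2 := ih (k + 1) x
    have h3 : |(k : ℝ) * iteratedDeriv m (ek (k + 1)) x|
        ≤ (k : ℝ) * ((2 ^ m * (k + 1 + 2 * m)! : ℕ) : ℝ) := by
      rw [abs_mul, abs_of_nonneg (Nat.cast_nonneg k)]
      exact mul_le_mul_of_nonneg_left h2 (Nat.cast_nonneg k)
    have h4 : (2 ^ m * (k + 2 + 2 * m)! + k * (2 ^ m * (k + 1 + 2 * m)!) : ℕ)
        ≤ 2 ^ (m + 1) * (k + 2 * (m + 1))! := by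
      have e1 : k + 2 * (m + 1) = (k + 1 + 2 * m) + 1 := by ring
      have e2 : k + 2 + 2 * m = (k + 1 + 2 * m) + 1 := by ring
      rw [e1, e2, Nat.factorial_succ, pow_succ]
      have : k * (2 ^ m * (k + 1 + 2 * m)!) ≤ 2 ^ m * ((k + 1 + 2 * m + 1) * (k + 1 + 2 * m)!) := by
        calc k * (2 ^ m * (k + 1 + 2 * m)!) = 2 ^ m * (k * (k + 1 + 2 * m)!) := by ring
          _ ≤ 2 ^ m * ((k + 1 + 2 * m + 1) * (k + 1 + 2 * m)!) := by
            apply Nat.mul_le_mul_left
            apply Nat.mul_le_mul_right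
            omega
      nlinarith
    calc |iteratedDeriv m (ek (k + 2)) x - (k : ℝ) * iteratedDeriv m (ek (k + 1)) x|
        ≤ |iteratedDeriv m (ek (k + 2)) x| + |(k : ℝ) * iteratedDeriv m (ek (k + 1)) x| :=
          abs_sub _ _
      _ ≤ ((2 ^ m * (k + 2 + 2 * m)! : ℕ) : ℝ) + (k : ℝ) * ((2 ^ m * (k + 1 + 2 * m)! : ℕ) : ℝ) :=
          add_le_add h1 h3
      _ = ((2 ^ m * (k + 2 + 2 * m)! + k * (2 ^ m * (k + 1 + 2 * m)!) : ℕ) : ℝ) := by push_cast; ring
      _ ≤ _ := by exact_mod_cast h4

/-- bound for the `m`-th derivative of `expNegInvGlue`. -/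
def glueBound (m : ℕ) : ℕ := 2 ^ m * (2 * m)!

theorem abs_iteratedDeriv_glue_le (m : ℕ) (x : ℝ) :
    |iteratedDeriv m expNegInvGlue x| ≤ (glueBound m : ℝ) := by
  have := abs_iteratedDeriv_ek_le m 0 x
  rw [ek_zero] at this
  simpa [glueBound] using this

theorem glueBound_mono : Monotone glueBound := by
  intro a b hab
  unfold glueBound
  exact Nat.mul_le_mul (Nat.pow_le_pow_right (by norm_num) hab)
    (Nat.factorial_le (by omega))

theorem one_le_glueBound (m : ℕ) : 1 ≤ glueBound m := by
  unfold glueBound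
  exact Nat.one_le_iff_ne_zero.2 (Nat.mul_ne_zero (by positivity) (Nat.factorial_ne_zero _))

/-- the denominator of `Real.smoothTransition`. -/
noncomputable def glueDen (x : ℝ) : ℝ := expNegInvGlue x + expNegInvGlue (1 - x)

theorem glueDen_contDiff : ContDiff ℝ ∞ glueDen := by
  unfold glueDen
  exact expNegInvGlue.contDiff.add (expNegInvGlue.contDiff.comp (contDiff_const.sub contDiff_id))

theorem abs_iteratedDeriv_glueDen_le (m : ℕ) (x : ℝ) :
    |iteratedDeriv m glueDen x| ≤ 2 * (glueBound m : ℝ) := by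
  have hc1 : ContDiffAt ℝ m expNegInvGlue x := expNegInvGlue.contDiff.contDiffAt
  have hc2 : ContDiffAt ℝ m (fun y => expNegInvGlue (1 - y)) x :=
    (expNegInvGlue.contDiff.comp (contDiff_const.sub contDiff_id)).contDiffAt
  have e : glueDen = fun y => expNegInvGlue y + expNegInvGlue (1 - y) := rfl
  rw [e, iteratedDeriv_fun_add hc1 hc2, iteratedDeriv_comp_const_sub]
  have h1 := abs_iteratedDeriv_glue_le m x
  have h2 := abs_iteratedDeriv_glue_le m (1 - x)
  have h3 : |(-1 : ℝ) ^ m • iteratedDeriv m expNegInvGlue (1 - x)| ≤ (glueBound m : ℝ) := by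
    rw [smul_eq_mul, abs_mul, abs_pow, abs_neg, abs_one, one_pow, one_mul]
    exact h2
  calc _ ≤ |iteratedDeriv m expNegInvGlue x|
        + |(-1 : ℝ) ^ m • iteratedDeriv m expNegInvGlue (1 - x)| := abs_add_le _ _
    _ ≤ _ := by linarith

theorem eighth_le_glueDen (x : ℝ) : 1 / 8 ≤ glueDen x := by
  have hhalf : (1 : ℝ) / 8 ≤ expNegInvGlue (1 / 2) := by
    have h1 : expNegInvGlue (1 / 2) = Real.exp (-2) := by
      simp [expNegInvGlue]
    rw [h1, Real.exp_neg]
    have h2 : Real.exp 2 ≤ 8 := by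
      have : Real.exp 2 = Real.exp 1 * Real.exp 1 := by rw [← Real.exp_add]; norm_num
      rw [this]
      have h3 := Real.exp_one_lt_d9
      have h4 := Real.exp_pos 1
      nlinarith
    rw [one_div]
    exact inv_anti₀ (Real.exp_pos 2) h2
  unfold glueDen
  rcases le_total (1 / 2) x with hx | hx
  · have := expNegInvGlue.monotone hx
    have := expNegInvGlue.nonneg (1 - x)
    linarith
  · have := expNegInvGlue.monotone (show (1 : ℝ) / 2 ≤ 1 - x by linarith)
    have := expNegInvGlue.nonneg x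
    linarith

/-- explicit bound for the `m`-th derivative of `Real.smoothTransition`. -/
def sigmaBound (m : ℕ) : ℕ := (24 * 2 ^ m * (2 ^ m * (2 * m)!)) ^ m

theorem sigmaBound_eq (m : ℕ) : sigmaBound m = (24 * 2 ^ m * glueBound m) ^ m := rfl

theorem sigmaBase_mono : Monotone (fun m => 24 * 2 ^ m * glueBound m) := by
  intro a b hab
  exact Nat.mul_le_mul (Nat.mul_le_mul_left _ (Nat.pow_le_pow_right (by norm_num) hab))
    (glueBound_mono hab)

theorem one_le_sigmaBase (m : ℕ) : 1 ≤ 24 * 2 ^ m * glueBound m := by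
  have := one_le_glueBound m
  have h2 : 1 ≤ 2 ^ m := Nat.one_le_two_pow
  nlinarith

theorem sigmaBound_mono : Monotone sigmaBound := by
  intro a b hab
  rw [sigmaBound_eq, sigmaBound_eq]
  calc (24 * 2 ^ a * glueBound a) ^ a ≤ (24 * 2 ^ b * glueBound b) ^ a :=
        Nat.pow_le_pow_left (sigmaBase_mono hab) _
    _ ≤ (24 * 2 ^ b * glueBound b) ^ b := Nat.pow_le_pow_right (one_le_sigmaBase b) hab

theorem smoothTransition_mul_glueDen :
    (Real.smoothTransition * glueDen) = expNegInvGlue := by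
  funext x
  have := (Real.smoothTransition.pos_denom x).ne'
  simp only [Pi.mul_apply, Real.smoothTransition, glueDen]
  field_simp

theorem abs_iteratedDeriv_smoothTransition_le (m : ℕ) (x : ℝ) :
    |iteratedDeriv m Real.smoothTransition x| ≤ (sigmaBound m : ℝ) := by
  induction m using Nat.strong_induction_on with
  | _ m ih =>
    rcases Nat.eq_zero_or_pos m with rfl | hm
    · simp only [iteratedDeriv_zero, sigmaBound, pow_zero, Nat.cast_one]
      rw [abs_of_nonneg (Real.smoothTransition.nonneg x)]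
      exact Real.smoothTransition.le_one x
    · obtain ⟨p, rfl⟩ : ∃ p, m = p + 1 := ⟨m - 1, by omega⟩
      have hc1 : ContDiffAt ℝ (p + 1 : ℕ) Real.smoothTransition x :=
        Real.smoothTransition.contDiffAt
      have hc2 : ContDiffAt ℝ (p + 1 : ℕ) glueDen x :=
        (glueDen_contDiff.of_le (by exact_mod_cast le_top)).contDiffAt
      have hL := iteratedDeriv_mul hc1 hc2
      rw [smoothTransition_mul_glueDen, Finset.sum_range_succ] at hL
      simp only [Nat.choose_self, Nat.cast_one, one_mul, Nat.sub_self, iteratedDeriv_zero] at hL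
      set S : ℝ := ∑ i ∈ Finset.range (p + 1), ((p + 1).choose i : ℝ) *
        iteratedDeriv i Real.smoothTransition x * iteratedDeriv (p + 1 - i) glueDen x with hS
      have hSb : |S| ≤ 2 ^ (p + 1) * ((sigmaBound p : ℝ) * (2 * (glueBound (p + 1) : ℝ))) := by
        have hterm : ∀ i ∈ Finset.range (p + 1), |((p + 1).choose i : ℝ) *
            iteratedDeriv i Real.smoothTransition x * iteratedDeriv (p + 1 - i) glueDen x|
            ≤ ((p + 1).choose i : ℝ) * ((sigmaBound p : ℝ) * (2 * (glueBound (p + 1) : ℝ))) := by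
          intro i hi
          have hi' : i < p + 1 := Finset.mem_range.1 hi
          rw [abs_mul, abs_mul, abs_of_nonneg (Nat.cast_nonneg _), mul_assoc]
          apply mul_le_mul_of_nonneg_left _ (Nat.cast_nonneg _)
          have a1 : |iteratedDeriv i Real.smoothTransition x| ≤ (sigmaBound p : ℝ) :=
            (ih i hi').trans (by exact_mod_cast sigmaBound_mono (by omega))
          have a2 : |iteratedDeriv (p + 1 - i) glueDen x| ≤ 2 * (glueBound (p + 1) : ℝ) :=
            (abs_iteratedDeriv_glueDen_le _ x).trans (by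
              have : (glueBound (p + 1 - i) : ℝ) ≤ (glueBound (p + 1) : ℝ) := by
                exact_mod_cast glueBound_mono (by omega)
              linarith)
          exact mul_le_mul a1 a2 (abs_nonneg _) (Nat.cast_nonneg _)
        calc |S| ≤ ∑ i ∈ Finset.range (p + 1), |((p + 1).choose i : ℝ) *
            iteratedDeriv i Real.smoothTransition x * iteratedDeriv (p + 1 - i) glueDen x| :=
              Finset.abs_sum_le_sum_abs _ _
          _ ≤ ∑ i ∈ Finset.range (p + 1), ((p + 1).choose i : ℝ) *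
              ((sigmaBound p : ℝ) * (2 * (glueBound (p + 1) : ℝ))) := Finset.sum_le_sum hterm
          _ = (∑ i ∈ Finset.range (p + 1), ((p + 1).choose i : ℝ)) *
              ((sigmaBound p : ℝ) * (2 * (glueBound (p + 1) : ℝ))) := by rw [Finset.sum_mul]
          _ ≤ 2 ^ (p + 1) * ((sigmaBound p : ℝ) * (2 * (glueBound (p + 1) : ℝ))) := by
              apply mul_le_mul_of_nonneg_right _ (by positivity)
              have h1 : ∑ i ∈ Finset.range (p + 1), ((p + 1).choose i)
                  ≤ ∑ i ∈ Finset.range (p + 1 + 1), ((p + 1).choose i) :=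
                Finset.sum_le_sum_of_subset (Finset.range_subset_range.2 (by omega))
              rw [Nat.sum_range_choose] at h1
              exact_mod_cast h1
      have hE := abs_iteratedDeriv_glue_le (p + 1) x
      have hD := eighth_le_glueDen x
      have hDpos : 0 < glueDen x := by linarith
      set y := iteratedDeriv (p + 1) Real.smoothTransition x with hy
      have hy1 : y * glueDen x = iteratedDeriv (p + 1) expNegInvGlue x - S := by linarith
      have hy2 : |y| * glueDen x ≤ (glueBound (p + 1) : ℝ)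
          + 2 ^ (p + 1) * ((sigmaBound p : ℝ) * (2 * (glueBound (p + 1) : ℝ))) := by
        rw [← abs_of_pos hDpos, ← abs_mul, hy1]
        exact (abs_sub _ _).trans (add_le_add hE hSb)
      have hs1 : (1 : ℝ) ≤ (sigmaBound p : ℝ) := by
        have : 1 ≤ sigmaBound p := Nat.one_le_pow _ _ (one_le_sigmaBase p)
        exact_mod_cast this
      have hg0 : (0 : ℝ) ≤ (glueBound (p + 1) : ℝ) := Nat.cast_nonneg _
      have h2p : (1 : ℝ) ≤ 2 ^ (p + 1) := one_le_pow₀ (by norm_num)
      have hy3 : |y| ≤ 24 * 2 ^ (p + 1) * (glueBound (p + 1) : ℝ) * (sigmaBound p : ℝ) := by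
        have hy0 := abs_nonneg y
        have k1 : |y| * (1 / 8) ≤ |y| * glueDen x := mul_le_mul_of_nonneg_left hD hy0
        have k2 : (glueBound (p + 1) : ℝ)
            ≤ 2 ^ (p + 1) * ((sigmaBound p : ℝ) * (glueBound (p + 1) : ℝ)) := by
          have : (1 : ℝ) ≤ 2 ^ (p + 1) * (sigmaBound p : ℝ) := by nlinarith
          nlinarith
        nlinarith
      have hfin : 24 * 2 ^ (p + 1) * glueBound (p + 1) * sigmaBound p ≤ sigmaBound (p + 1) := by
        rw [sigmaBound_eq (p + 1), pow_succ, mul_comm]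
        apply Nat.mul_le_mul_right
        rw [sigmaBound_eq]
        exact Nat.pow_le_pow_left (sigmaBase_mono (Nat.le_succ p)) _
      calc |y| ≤ 24 * 2 ^ (p + 1) * (glueBound (p + 1) : ℝ) * (sigmaBound p : ℝ) := hy3
        _ = ((24 * 2 ^ (p + 1) * glueBound (p + 1) * sigmaBound p : ℕ) : ℝ) := by push_cast; ring
        _ ≤ _ := by exact_mod_cast hfin

/-! ### primitive recursiveness -/

theorem primrec_natPow : Primrec₂ (fun a b : ℕ => a ^ b) := by
  have h : Primrec₂ (fun (a : ℕ) (n : ℕ) =>
      (n.rec (motive := fun _ => ℕ) ((fun _ : ℕ => 1) a)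
        fun n IH => (fun (a : ℕ) (q : ℕ × ℕ) => q.2 * a) a (n, IH))) :=
    Primrec.nat_rec (Primrec.const 1)
      (Primrec.nat_mul.comp (Primrec.snd.comp Primrec.snd) Primrec.fst).to₂
  refine h.of_eq ?_
  intro a b
  induction b with
  | zero => simp
  | succ b ih => simp only [pow_succ]; rw [← ih]

theorem primrec_natFactorial : Primrec Nat.factorial := by
  have h : Primrec (Nat.rec (motive := fun _ => ℕ) 1 (fun n IH => (n + 1) * IH)) :=
    Primrec.nat_rec₁ 1
      (Primrec.nat_mul.comp (Primrec.succ.comp Primrec.fst) Primrec.snd).to₂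
  refine h.of_eq ?_
  intro n
  induction n with
  | zero => simp
  | succ n ih => simp only [Nat.factorial_succ]; rw [← ih]

theorem primrec_sigmaBound : Primrec sigmaBound := by
  unfold sigmaBound
  have h2m : Primrec (fun m : ℕ => 2 ^ m) := primrec_natPow.comp (Primrec.const 2) Primrec.id
  have hf : Primrec (fun m : ℕ => (2 * m)!) :=
    primrec_natFactorial.comp (Primrec.nat_mul.comp (Primrec.const 2) Primrec.id)
  have hb : Primrec (fun m : ℕ => 24 * 2 ^ m * (2 ^ m * (2 * m)!)) :=
    Primrec.nat_mul.comp (Primrec.nat_mul.comp (Primrec.const 24) h2m)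
      (Primrec.nat_mul.comp h2m hf)
  exact primrec_natPow.comp hb Primrec.id

end Crest.Agent.S0170
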