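import Mathlib
import Crest.Agent.S0170_Sigma
import Crest.Agent.S0170_FD
import Crest.Agent.S0170_SigmaBound

/-!
# S0170: effective smooth functions of one variable
-/

set_option autoImplicit false

namespace Crest.Agent.S0170

open scoped ContDiff Nat

/-- effective smooth function of one real variable. -/
def Eff1 (f : ℝ → ℝ) : Prop :=
  ContDiff ℝ ∞ f ∧ CompReal (fun x : ℕ × ℚ => iteratedDeriv x.1 f (x.2 : ℝ)) ∧
    ∃ B : ℕ → ℕ, Computable B ∧ ∀ m x, |iteratedDeriv m f x| ≤ (B m : ℝ)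

theorem primrec_factorial : Primrec Nat.factorial := by
  have h : Primrec (Nat.rec (motive := fun _ => ℕ) 1 (fun n IH => (n + 1) * IH)) :=
    Primrec.nat_rec₁ 1 (Primrec.nat_mul.comp (Primrec.succ.comp Primrec.fst) Primrec.snd)
  refine h.of_eq (fun n => ?_)
  induction n with
  | zero => rfl
  | succ k ih => simp only [Nat.factorial_succ]; rw [← ih]

theorem comp_factorial {α : Type*} [Primcodable α] {f : α → ℕ} (hf : Computable f) :
    Computable (fun a => (f a)!) := primrec_factorial.to_comp.comp hf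

/-- the coefficient of the finite difference formula. -/
def fdCoef (m k : ℕ) : ℚ := (-1) ^ (m - k) * ((m ! / (k ! * (m - k)!) : ℕ) : ℚ)

theorem comp_fdCoef {α : Type*} [Primcodable α] {f g : α → ℕ} (hf : Computable f)
    (hg : Computable g) : Computable (fun a => fdCoef (f a) (g a)) := by
  unfold fdCoef
  have hs : Computable (fun a => f a - g a) := cnat_sub.comp hf hg
  refine comp_qmul (comp_qpow (Computable.const (-1)) hs) (comp_qcast ?_)
  exact (Primrec.nat_div.to_comp).comp (comp_factorial hf)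
    (cnat_mul.comp (comp_factorial hg) (comp_factorial hs))

theorem fdCoef_eq (m k : ℕ) (hk : k ≤ m) :
    ((fdCoef m k : ℚ) : ℝ) = (-1 : ℝ) ^ (m - k) * (m.choose k : ℝ) := by
  unfold fdCoef
  rw [← Nat.choose_eq_factorial_div_factorial hk]
  push_cast
  ring

theorem Eff1.of_values {f : ℝ → ℝ} (hf : ContDiff ℝ ∞ f)
    (hv : CompReal (fun q : ℚ => f (q : ℝ))) {B : ℕ → ℕ} (hB : Computable B)
    (hb : ∀ m x, |iteratedDeriv m f x| ≤ (B m : ℝ)) : Eff1 f := by
  refine ⟨hf, ?_, B, hB, hb⟩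
  -- step size
  let D : (ℕ × ℚ) × ℕ → ℕ := fun a => (a.2 + 1) * ((a.1.1 + 1) * (B (a.1.1 + 1) + 1))
  have hD : Computable D := by
    have hm : Computable (fun a : (ℕ × ℚ) × ℕ => a.1.1 + 1) :=
      Computable.succ.comp (Computable.fst.comp Computable.fst)
    exact cnat_mul.comp (Computable.succ.comp Computable.snd)
      (cnat_mul.comp hm (Computable.succ.comp (hB.comp hm)))
  let hq : (ℕ × ℚ) × ℕ → ℚ := fun a => ((D a : ℕ) : ℚ)⁻¹
  have hhq : Computable hq := comp_qinv (comp_qcast hD)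
  -- summand
  have hS : CompReal (fun y : ((ℕ × ℚ) × ℕ) × ℕ =>
      ((fdCoef y.1.1.1 y.2 : ℚ) : ℝ) * f ((y.1.1.2 + (y.2 : ℚ) * hq y.1 : ℚ) : ℝ)) := by
    refine CompReal.mul (CompReal.of_rat (comp_fdCoef
      (Computable.fst.comp (Computable.fst.comp Computable.fst)) Computable.snd)) ?_
    refine hv.comp (comp_qadd (Computable.snd.comp (Computable.fst.comp Computable.fst)) ?_)
    exact comp_qmul (comp_qcast Computable.snd) (hhq.comp Computable.fst)
  have hsum := CompReal.sum (N := fun a : (ℕ × ℚ) × ℕ => a.1.1 + 1) hS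
    (Computable.succ.comp (Computable.fst.comp Computable.fst))
  have hG := hsum.mul (CompReal.of_rat (f := fun a : (ℕ × ℚ) × ℕ => ((hq a) ^ a.1.1)⁻¹)
    (comp_qinv (comp_qpow hhq (Computable.fst.comp Computable.fst))))
  refine CompReal.of_approx hG ?_
  rintro ⟨m, q⟩ n
  simp only
  have hDpos : (0 : ℝ) < (D ((m, q), n) : ℝ) := by
    have : 0 < D ((m, q), n) := by simp only [D]; positivity
    exact_mod_cast this
  have hhpos : (0 : ℝ) < ((hq ((m, q), n) : ℚ) : ℝ) := by
    simp only [hq]; push_cast; positivity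
  have key := fd_approx f hf m (B (m + 1)) (hb (m + 1)) _ hhpos (q : ℝ)
  have e : (∑ i ∈ Finset.range (m + 1), ((fdCoef m i : ℚ) : ℝ) *
        f ((q + (i : ℚ) * hq ((m, q), n) : ℚ) : ℝ)) * (((hq ((m, q), n) ^ m)⁻¹ : ℚ) : ℝ)
      = (∑ k ∈ Finset.range (m + 1), ((-1 : ℝ) ^ (m - k) * (m.choose k : ℝ)) *
        f ((q : ℝ) + k * ((hq ((m, q), n) : ℚ) : ℝ))) / ((hq ((m, q), n) : ℚ) : ℝ) ^ m := by
    rw [div_eq_mul_inv]
    congr 1
    · refine Finset.sum_congr rfl (fun k hk => ?_)
      rw [fdCoef_eq m k (Nat.lt_succ_iff.1 (Finset.mem_range.1 hk))]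
      push_cast
      ring_nf
    · push_cast; ring
  rw [e, abs_sub_comm]
  refine key.trans ?_
  have hval : ((hq ((m, q), n) : ℚ) : ℝ)
      = 1 / (((n : ℝ) + 1) * (((m : ℝ) + 1) * ((B (m + 1) : ℝ) + 1))) := by
    simp only [hq, D]; push_cast; rw [one_div]
  rw [hval]
  have hm0 : (0 : ℝ) ≤ m := Nat.cast_nonneg m
  have hB0 : (0 : ℝ) ≤ (B (m + 1) : ℝ) := Nat.cast_nonneg _
  have hn0 : (0 : ℝ) ≤ n := Nat.cast_nonneg n
  rw [mul_one_div, div_mul_eq_mul_div, div_le_div_iff₀ (by positivity) (by positivity)]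
  nlinarith [mul_nonneg hm0 hB0, mul_nonneg (mul_nonneg hm0 hB0) hn0]

theorem cnat_pow : Computable₂ ((· ^ ·) : ℕ → ℕ → ℕ) :=
  (Primrec₂.unpaired'.1 Nat.Primrec.pow).to_comp

theorem Eff1.sigma : Eff1 Real.smoothTransition :=
  Eff1.of_values Real.smoothTransition.contDiff compReal_sigma primrec_sigmaBound.to_comp
    abs_iteratedDeriv_smoothTransition_le

theorem Eff1.contDiff {f : ℝ → ℝ} (hf : Eff1 f) : ContDiff ℝ ∞ f := hf.1

theorem contDiffAt_nat {f : ℝ → ℝ} (hf : ContDiff ℝ ∞ f) (m : ℕ) (x : ℝ) : ContDiffAt ℝ m f x :=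
  (hf.of_le (by exact_mod_cast le_top)).contDiffAt

theorem contDiff_nat {f : ℝ → ℝ} (hf : ContDiff ℝ ∞ f) (m : ℕ) : ContDiff ℝ m f :=
  hf.of_le (by exact_mod_cast le_top)

theorem iteratedDeriv_comp_affine {f : ℝ → ℝ} (hf : ContDiff ℝ ∞ f) (a b : ℝ) (m : ℕ) (x : ℝ) :
    iteratedDeriv m (fun x => f (a * x + b)) x = a ^ m * iteratedDeriv m f (a * x + b) := by
  have h1 : ContDiff ℝ m (fun z => f (z + b)) :=
    (contDiff_nat hf m).comp (contDiff_id.add contDiff_const)
  have h2 := iteratedDeriv_comp_const_mul h1 a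
  have h3 := iteratedDeriv_comp_add_const m f b
  rw [h3] at h2
  exact congrFun h2 x

theorem Eff1.comp_affine {f : ℝ → ℝ} (hf : Eff1 f) (a b : ℚ) :
    Eff1 (fun x => f ((a : ℝ) * x + (b : ℝ))) := by
  obtain ⟨h1, h2, B, hB, hb⟩ := hf
  refine ⟨h1.comp ((contDiff_const.mul contDiff_id).add contDiff_const), ?_,
    fun m => (natBound a) ^ m * B m, ?_, ?_⟩
  · have hc : CompReal (fun x : ℕ × ℚ => ((a ^ x.1 : ℚ) : ℝ) *
        iteratedDeriv x.1 f ((a * x.2 + b : ℚ) : ℝ)) := by
      refine CompReal.mul (CompReal.of_rat (comp_qpow (Computable.const a) Computable.fst)) ?_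
      exact h2.comp (g := fun x : ℕ × ℚ => (x.1, a * x.2 + b)) (Computable.pair Computable.fst
        (comp_qadd (comp_qmul (Computable.const a) Computable.snd) (Computable.const b)))
    refine hc.of_eq (fun x => ?_)
    rw [iteratedDeriv_comp_affine h1]
    push_cast
    ring
  · exact cnat_mul.comp (cnat_pow.comp (Computable.const _) Computable.id) hB
  · intro m x
    rw [iteratedDeriv_comp_affine h1, abs_mul, abs_pow]
    push_cast
    exact mul_le_mul (pow_le_pow_left₀ (abs_nonneg _) (abs_le_natBound_real a) m) (hb m _)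
      (abs_nonneg _) (by positivity)

theorem Eff1.add {f g : ℝ → ℝ} (hf : Eff1 f) (hg : Eff1 g) : Eff1 (fun x => f x + g x) := by
  obtain ⟨h1, h2, B, hB, hb⟩ := hf
  obtain ⟨h1', h2', B', hB', hb'⟩ := hg
  have e : ∀ m x, iteratedDeriv m (fun x => f x + g x) x
      = iteratedDeriv m f x + iteratedDeriv m g x := fun m x =>
    iteratedDeriv_add (contDiffAt_nat h1 m x) (contDiffAt_nat h1' m x)
  refine ⟨h1.add h1', (h2.add h2').of_eq (fun x => (e _ _).symm), fun m => B m + B' m,
    cnat_add.comp hB hB', fun m x => ?_⟩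
  rw [e]
  push_cast
  exact (abs_add_le _ _).trans (add_le_add (hb m x) (hb' m x))

theorem Eff1.const_mul {f : ℝ → ℝ} (hf : Eff1 f) (c : ℚ) : Eff1 (fun x => (c : ℝ) * f x) := by
  obtain ⟨h1, h2, B, hB, hb⟩ := hf
  have e : ∀ m x, iteratedDeriv m (fun x => (c : ℝ) * f x) x = (c : ℝ) * iteratedDeriv m f x :=
    fun m x => iteratedDeriv_const_mul_field (n := m) (c : ℝ) f
  refine ⟨contDiff_const.mul h1, ((CompReal.const c).mul h2).of_eq (fun x => (e _ _).symm),
    fun m => natBound c * B m, cnat_mul.comp (Computable.const _) hB, fun m x => ?_⟩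
  rw [e, abs_mul]
  push_cast
  exact mul_le_mul (abs_le_natBound_real c) (hb m x) (abs_nonneg _) (by positivity)

theorem Eff1.neg {f : ℝ → ℝ} (hf : Eff1 f) : Eff1 (fun x => - f x) := by
  have := hf.const_mul (-1)
  have e : (fun x => ((-1 : ℚ) : ℝ) * f x) = fun x => - f x := by
    funext x; push_cast; ring
  rwa [e] at this

theorem Eff1.sub {f g : ℝ → ℝ} (hf : Eff1 f) (hg : Eff1 g) : Eff1 (fun x => f x - g x) := by
  have := hf.add hg.neg
  have e : (fun x => f x + - g x) = fun x => f x - g x := by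
    funext x; ring
  rwa [e] at this

theorem Eff1.deriv {f : ℝ → ℝ} (hf : Eff1 f) : Eff1 (deriv f) := by
  obtain ⟨h1, h2, B, hB, hb⟩ := hf
  have e : ∀ m x, iteratedDeriv m (_root_.deriv f) x = iteratedDeriv (m + 1) f x := fun m x => by
    rw [iteratedDeriv_succ']
  refine ⟨?_, ?_, fun m => B (m + 1), hB.comp Computable.succ, fun m x => ?_⟩
  · have : ContDiff ℝ (∞ + 1) f := by simpa using h1
    exact (contDiff_succ_iff_deriv.1 this).2.2
  · have := h2.comp (g := fun x : ℕ × ℚ => (x.1 + 1, x.2))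
      (Computable.pair (Computable.succ.comp Computable.fst) Computable.snd)
    exact this.of_eq (fun x => (e _ _).symm)
  · rw [e]; exact hb (m + 1) x

theorem nat_lt_infty (k : ℕ) : ((k : ℕ) : WithTop ℕ∞) < (∞ : WithTop ℕ∞) := by
  exact_mod_cast WithTop.coe_lt_top _

theorem iteratedDeriv_id_mul {f : ℝ → ℝ} (hf : ContDiff ℝ ∞ f) (m : ℕ) (x : ℝ) :
    iteratedDeriv m (fun x => x * f x) x
      = x * iteratedDeriv m f x + m * iteratedDeriv (m - 1) f x := by
  induction m generalizing x with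
  | zero => simp
  | succ m ih =>
    rw [iteratedDeriv_succ]
    have hfun : iteratedDeriv m (fun x => x * f x)
        = fun x => x * iteratedDeriv m f x + m * iteratedDeriv (m - 1) f x := funext ih
    rw [hfun]
    have d1 : DifferentiableAt ℝ (iteratedDeriv m f) x :=
      (hf.differentiable_iteratedDeriv m (nat_lt_infty m)).differentiableAt
    have d2 : DifferentiableAt ℝ (iteratedDeriv (m - 1) f) x :=
      (hf.differentiable_iteratedDeriv (m - 1) (nat_lt_infty (m - 1))).differentiableAt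
    have h1 : HasDerivAt (fun x => x * iteratedDeriv m f x)
        (1 * iteratedDeriv m f x + x * iteratedDeriv (m + 1) f x) x := by
      have := (hasDerivAt_id x).mul d1.hasDerivAt
      rw [iteratedDeriv_succ]
      exact this
    have h2 : HasDerivAt (fun x => (m : ℝ) * iteratedDeriv (m - 1) f x)
        ((m : ℝ) * iteratedDeriv m f x) x := by
      cases m with
      | zero => simpa using hasDerivAt_const x (0 : ℝ)
      | succ k =>
        have := d2.hasDerivAt.const_mul ((k + 1 : ℕ) : ℝ)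
        simp only [Nat.add_sub_cancel] at this ⊢
        rw [iteratedDeriv_succ]
        exact this
    have h3 : HasDerivAt (fun x => x * iteratedDeriv m f x + ↑m * iteratedDeriv (m - 1) f x) _ x :=
      h1.add h2
    rw [h3.deriv]
    simp only [Nat.add_sub_cancel]
    push_cast
    ring

theorem iteratedDeriv_eq_zero_of_support {f : ℝ → ℝ} {R : ℝ} (hs : ∀ x, R < |x| → f x = 0)
    (m : ℕ) (x : ℝ) (hx : R < |x|) : iteratedDeriv m f x = 0 := by
  have hopen : IsOpen {y : ℝ | R < |y|} := isOpen_lt continuous_const continuous_abs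
  have : f =ᶠ[nhds x] fun _ => 0 := by
    filter_upwards [hopen.mem_nhds hx] with y hy using hs y hy
  rw [this.iteratedDeriv_eq m]
  simp

theorem Eff1.id_mul {f : ℝ → ℝ} (hf : Eff1 f) (R : ℕ) (hs : ∀ x, (R : ℝ) < |x| → f x = 0) :
    Eff1 (fun x => x * f x) := by
  obtain ⟨h1, h2, B, hB, hb⟩ := hf
  refine ⟨contDiff_id.mul h1, ?_, fun m => R * B m + m * B (m - 1), ?_, fun m x => ?_⟩
  · have hc : CompReal (fun x : ℕ × ℚ => ((x.2 : ℚ) : ℝ) * iteratedDeriv x.1 f (x.2 : ℝ)
        + (((x.1 : ℕ) : ℚ) : ℝ) * iteratedDeriv (x.1 - 1) f (x.2 : ℝ)) := by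
      refine CompReal.add (CompReal.mul (CompReal.of_rat Computable.snd) h2)
        (CompReal.mul (CompReal.of_rat (comp_qcast Computable.fst)) ?_)
      exact h2.comp (g := fun x : ℕ × ℚ => (x.1 - 1, x.2))
        (Computable.pair (Computable.pred.comp Computable.fst) Computable.snd)
    refine hc.of_eq (fun x => ?_)
    rw [iteratedDeriv_id_mul h1]
    push_cast
    ring
  · exact cnat_add.comp (cnat_mul.comp (Computable.const R) hB)
      (cnat_mul.comp Computable.id (hB.comp Computable.pred))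
  · rw [iteratedDeriv_id_mul h1]
    push_cast
    refine (abs_add_le _ _).trans (add_le_add ?_ ?_)
    · by_cases hx : (R : ℝ) < |x|
      · rw [iteratedDeriv_eq_zero_of_support hs m x hx]
        simp only [mul_zero, abs_zero]
        positivity
      · rw [abs_mul]
        exact mul_le_mul (not_lt.1 hx) (hb m x) (abs_nonneg _) (by positivity)
    · rw [abs_mul, Nat.abs_cast]
      exact mul_le_mul_of_nonneg_left (hb (m - 1) x) (by positivity)

end Crest.Agent.S0170
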