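import Mathlib
import Crest.Agent.S0170_Eff1

/-!
# S0170: one-dimensional building blocks (time profile, plateau functions)
-/

set_option autoImplicit false

namespace Crest.Agent.S0170

open scoped ContDiff

local notation "σ" => Real.smoothTransition

/-- smooth step from `0` (for `t ≤ τ₀`) to `1` (for `τ₁ ≤ t`). -/
noncomputable def stepFn (τ₀ τ₁ : ℚ) (t : ℝ) : ℝ :=
  σ ((((τ₁ - τ₀)⁻¹ : ℚ) : ℝ) * t + ((-τ₀ * (τ₁ - τ₀)⁻¹ : ℚ) : ℝ))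

theorem stepFn_arg (τ₀ τ₁ : ℚ) (t : ℝ) :
    (((τ₁ - τ₀)⁻¹ : ℚ) : ℝ) * t + ((-τ₀ * (τ₁ - τ₀)⁻¹ : ℚ) : ℝ) = (t - τ₀) / ((τ₁ : ℝ) - τ₀) := by
  push_cast; rw [div_eq_mul_inv]; ring

theorem eff1_stepFn (τ₀ τ₁ : ℚ) : Eff1 (stepFn τ₀ τ₁) := Eff1.sigma.comp_affine _ _

theorem stepFn_of_le {τ₀ τ₁ : ℚ} (h : τ₀ < τ₁) {t : ℝ} (ht : t ≤ τ₀) : stepFn τ₀ τ₁ t = 0 := by
  unfold stepFn
  rw [stepFn_arg]
  apply Real.smoothTransition.zero_of_nonpos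
  have : (0 : ℝ) < (τ₁ : ℝ) - τ₀ := by
    have : (τ₀ : ℝ) < τ₁ := by exact_mod_cast h
    linarith
  exact div_nonpos_of_nonpos_of_nonneg (by linarith) this.le

theorem stepFn_of_ge {τ₀ τ₁ : ℚ} (h : τ₀ < τ₁) {t : ℝ} (ht : (τ₁ : ℝ) ≤ t) :
    stepFn τ₀ τ₁ t = 1 := by
  unfold stepFn
  rw [stepFn_arg]
  apply Real.smoothTransition.one_of_one_le
  have : (0 : ℝ) < (τ₁ : ℝ) - τ₀ := by
    have : (τ₀ : ℝ) < τ₁ := by exact_mod_cast h
    linarith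
  rw [le_div_iff₀ this]
  linarith

theorem stepFn_nonneg (τ₀ τ₁ : ℚ) (t : ℝ) : 0 ≤ stepFn τ₀ τ₁ t := Real.smoothTransition.nonneg _
theorem stepFn_le_one (τ₀ τ₁ : ℚ) (t : ℝ) : stepFn τ₀ τ₁ t ≤ 1 := Real.smoothTransition.le_one _

theorem hasDerivAt_stepFn (τ₀ τ₁ : ℚ) (t : ℝ) :
    HasDerivAt (stepFn τ₀ τ₁) (deriv (stepFn τ₀ τ₁) t) t :=
  (((eff1_stepFn τ₀ τ₁).1.differentiable (by simp)).differentiableAt).hasDerivAt

theorem deriv_stepFn_eq_zero {τ₀ τ₁ : ℚ} (h : τ₀ < τ₁) {t : ℝ}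
    (ht : t ∉ Set.Ioo (τ₀ : ℝ) (τ₁ : ℝ)) : deriv (stepFn τ₀ τ₁) t = 0 := by
  have hd := hasDerivAt_stepFn τ₀ τ₁ t
  rcases le_or_gt t τ₀ with h1 | h1
  · -- local minimum
    have hmin : IsLocalMin (stepFn τ₀ τ₁) t := by
      refine Filter.Eventually.of_forall (fun s => ?_)
      rw [stepFn_of_le h h1]; exact stepFn_nonneg _ _ _
    exact hmin.deriv_eq_zero
  · have h2 : (τ₁ : ℝ) ≤ t := by
      by_contra hc
      exact ht ⟨h1, not_le.1 hc⟩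
    have hmax : IsLocalMax (stepFn τ₀ τ₁) t := by
      refine Filter.Eventually.of_forall (fun s => ?_)
      rw [stepFn_of_ge h h2]; exact stepFn_le_one _ _ _
    exact hmax.deriv_eq_zero

/-- plateau function: `1` on `[A, B]`, `0` outside `(A - ε, B + ε)`. -/
noncomputable def plateau (A B ε : ℚ) (x : ℝ) : ℝ :=
  σ (((ε⁻¹ : ℚ) : ℝ) * x + ((1 - A * ε⁻¹ : ℚ) : ℝ)) - σ (((ε⁻¹ : ℚ) : ℝ) * x + ((-B * ε⁻¹ : ℚ) : ℝ))

theorem eff1_plateau (A B ε : ℚ) : Eff1 (plateau A B ε) :=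
  (Eff1.sigma.comp_affine _ _).sub (Eff1.sigma.comp_affine _ _)

theorem plateau_eq_one {A B ε : ℚ} (hε : 0 < ε) {x : ℝ} (h1 : (A : ℝ) ≤ x) (h2 : x ≤ B) :
    plateau A B ε x = 1 := by
  have hε' : (0 : ℝ) < ε := by exact_mod_cast hε
  unfold plateau
  rw [Real.smoothTransition.one_of_one_le, Real.smoothTransition.zero_of_nonpos]
  · ring
  · push_cast
    have : (ε : ℝ)⁻¹ * x + -(B : ℝ) * (ε : ℝ)⁻¹ = (x - B) * (ε : ℝ)⁻¹ := by ring
    rw [this]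
    exact mul_nonpos_of_nonpos_of_nonneg (by linarith) (inv_nonneg.2 hε'.le)
  · push_cast
    have : (ε : ℝ)⁻¹ * x + (1 - (A : ℝ) * (ε : ℝ)⁻¹) = 1 + (x - A) * (ε : ℝ)⁻¹ := by ring
    rw [this]
    have := mul_nonneg (by linarith : (0 : ℝ) ≤ x - A) (inv_nonneg.2 hε'.le)
    linarith

theorem plateau_eq_zero {A B ε : ℚ} (hε : 0 < ε) (hAB : A ≤ B) {x : ℝ}
    (h : x ≤ (A : ℝ) - ε ∨ (B : ℝ) + ε ≤ x) : plateau A B ε x = 0 := by
  have hε' : (0 : ℝ) < ε := by exact_mod_cast hε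
  have hAB' : (A : ℝ) ≤ B := by exact_mod_cast hAB
  have e1 : (((ε⁻¹ : ℚ) : ℝ) * x + ((1 - A * ε⁻¹ : ℚ) : ℝ)) = (x - (A - ε)) / ε := by
    push_cast; field_simp; ring
  have e2 : (((ε⁻¹ : ℚ) : ℝ) * x + ((-B * ε⁻¹ : ℚ) : ℝ)) = (x - B) / ε := by
    push_cast; field_simp; ring
  unfold plateau
  rw [e1, e2]
  rcases h with h | h
  · rw [Real.smoothTransition.zero_of_nonpos, Real.smoothTransition.zero_of_nonpos]
    · ring
    · exact div_nonpos_of_nonpos_of_nonneg (by linarith) hε'.le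
    · exact div_nonpos_of_nonpos_of_nonneg (by linarith) hε'.le
  · rw [Real.smoothTransition.one_of_one_le, Real.smoothTransition.one_of_one_le]
    · ring
    · rw [le_div_iff₀ hε']; linarith
    · rw [le_div_iff₀ hε']; linarith

/-- quadratic times plateau. -/
noncomputable def quadPlateau (v₀ v₁ A B ε : ℚ) (x : ℝ) : ℝ :=
  ((v₀ : ℚ) : ℝ) * (x * plateau A B ε x) + ((v₁ / 2 : ℚ) : ℝ) * (x * (x * plateau A B ε x))

theorem exists_nat_support (A B ε : ℚ) (hε : 0 < ε) (hAB : A ≤ B) :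
    ∃ R : ℕ, ∀ x : ℝ, (R : ℝ) < |x| → plateau A B ε x = 0 := by
  refine ⟨natBound (A - ε) + natBound (B + ε), fun x hx => plateau_eq_zero hε hAB ?_⟩
  have h1 := abs_le_natBound_real (A - ε)
  have h2 := abs_le_natBound_real (B + ε)
  push_cast at h1 h2 hx
  have h3 : (0 : ℝ) ≤ (natBound (A - ε) : ℝ) := Nat.cast_nonneg _
  have h4 : (0 : ℝ) ≤ (natBound (B + ε) : ℝ) := Nat.cast_nonneg _
  rcases le_or_gt 0 x with h | h
  · right
    rw [abs_of_nonneg h] at hx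
    have := (abs_le.1 h2).2
    linarith
  · left
    rw [abs_of_neg h] at hx
    have := (abs_le.1 h1).1
    linarith

theorem eff1_quadPlateau (v₀ v₁ A B ε : ℚ) (hε : 0 < ε) (hAB : A ≤ B) :
    Eff1 (quadPlateau v₀ v₁ A B ε) := by
  obtain ⟨R, hR⟩ := exists_nat_support A B ε hε hAB
  have h1 : Eff1 (fun x => x * plateau A B ε x) := (eff1_plateau A B ε).id_mul R hR
  have h2 : Eff1 (fun x => x * (x * plateau A B ε x)) :=
    h1.id_mul R (fun x hx => by rw [hR x hx]; ring)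
  exact (h1.const_mul v₀).add (h2.const_mul (v₁ / 2))

theorem quadPlateau_eq_zero {v₀ v₁ A B ε : ℚ} (hε : 0 < ε) (hAB : A ≤ B) {x : ℝ}
    (h : x ≤ (A : ℝ) - ε ∨ (B : ℝ) + ε ≤ x) : quadPlateau v₀ v₁ A B ε x = 0 := by
  unfold quadPlateau
  rw [plateau_eq_zero hε hAB h]; ring

theorem deriv_eq_zero_of_eventually_const {g : ℝ → ℝ} {x c : ℝ} (h : g =ᶠ[nhds x] fun _ => c) :
    deriv g x = 0 := by
  rw [h.deriv_eq]; simp

theorem deriv_plateau_of_mem {A B ε : ℚ} (hε : 0 < ε) {x : ℝ} (h1 : (A : ℝ) < x) (h2 : x < B) :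
    deriv (plateau A B ε) x = 0 := by
  apply deriv_eq_zero_of_eventually_const (c := 1)
  filter_upwards [Ioo_mem_nhds h1 h2] with y hy
  exact plateau_eq_one hε hy.1.le hy.2.le

theorem deriv_plateau_of_out {A B ε : ℚ} (hε : 0 < ε) (hAB : A ≤ B) {x : ℝ}
    (h : x < (A : ℝ) - ε ∨ (B : ℝ) + ε < x) : deriv (plateau A B ε) x = 0 := by
  apply deriv_eq_zero_of_eventually_const (c := 0)
  rcases h with h | h
  · filter_upwards [Iio_mem_nhds h] with y hy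
    exact plateau_eq_zero hε hAB (Or.inl (le_of_lt hy))
  · filter_upwards [Ioi_mem_nhds h] with y hy
    exact plateau_eq_zero hε hAB (Or.inr (le_of_lt hy))

theorem deriv_quadPlateau_of_out {v₀ v₁ A B ε : ℚ} (hε : 0 < ε) (hAB : A ≤ B) {x : ℝ}
    (h : x < (A : ℝ) - ε ∨ (B : ℝ) + ε < x) : deriv (quadPlateau v₀ v₁ A B ε) x = 0 := by
  apply deriv_eq_zero_of_eventually_const (c := 0)
  rcases h with h | h
  · filter_upwards [Iio_mem_nhds h] with y hy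
    exact quadPlateau_eq_zero hε hAB (Or.inl (le_of_lt hy))
  · filter_upwards [Ioi_mem_nhds h] with y hy
    exact quadPlateau_eq_zero hε hAB (Or.inr (le_of_lt hy))

theorem deriv_quadPlateau_of_mem {v₀ v₁ A B ε : ℚ} (hε : 0 < ε) {x : ℝ} (h1 : (A : ℝ) < x)
    (h2 : x < B) : deriv (quadPlateau v₀ v₁ A B ε) x = (v₀ : ℝ) + (v₁ : ℝ) * x := by
  have he : quadPlateau v₀ v₁ A B ε =ᶠ[nhds x] fun y => (v₀ : ℝ) * y + ((v₁ : ℝ) / 2) * (y * y) := by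
    filter_upwards [Ioo_mem_nhds h1 h2] with y hy
    unfold quadPlateau
    rw [plateau_eq_one hε hy.1.le hy.2.le]
    push_cast; ring
  rw [he.deriv_eq]
  have hd : HasDerivAt (fun y : ℝ => (v₀ : ℝ) * y + ((v₁ : ℝ) / 2) * (y * y))
      ((v₀ : ℝ) * 1 + ((v₁ : ℝ) / 2) * (1 * x + x * 1)) x :=
    ((hasDerivAt_id x).const_mul _).add (((hasDerivAt_id x).mul (hasDerivAt_id x)).const_mul _)
  rw [hd.deriv]; ring

end Crest.Agent.S0170
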