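import Mathlib
import Crest.Agent.S0170_Eff1

/-!
# S0170: separable fields
-/

set_option autoImplicit false

namespace Crest.Agent.S0170

open Crest.AnalysisR.BoxFlow
open scoped ContDiff

/-- the four coordinates of a space-time point. -/
def coord (p : ℝ × E3) : Fin 4 → ℝ := Fin.cons p.1 p.2

@[simp] theorem coord_zero (p : ℝ × E3) : coord p 0 = p.1 := rfl
@[simp] theorem coord_succ (p : ℝ × E3) (j : Fin 3) : coord p j.succ = p.2 j := rfl

theorem direction_zero : direction 0 = ((1 : ℝ), (0 : E3)) := by
  simp [direction]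

theorem direction_succ (j : Fin 3) : direction j.succ = ((0 : ℝ), (Pi.single j 1 : E3)) := by
  simp [direction, Fin.succ_ne_zero]

theorem coord_direction (d d' : Fin 4) : coord (direction d) d' = if d' = d then 1 else 0 := by
  refine Fin.cases ?_ (fun j => ?_) d <;> refine Fin.cases ?_ (fun j' => ?_) d'
  · simp [direction_zero]
  · simp [direction_zero, Fin.succ_ne_zero]
  · simp [direction_succ, (Fin.succ_ne_zero j).symm]
  · simp [direction_succ, Pi.single_apply]

theorem coord_add_smul (p v : ℝ × E3) (s : ℝ) (d : Fin 4) :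
    coord (p + s • v) d = coord p d + s * coord v d := by
  refine Fin.cases ?_ (fun j => ?_) d <;> simp

theorem contDiff_coord (d : Fin 4) : ContDiff ℝ ∞ (fun p : ℝ × E3 => coord p d) := by
  refine Fin.cases ?_ (fun j => ?_) d
  · exact contDiff_fst
  · exact (contDiff_apply ℝ ℝ j).comp contDiff_snd

/-- separable field. -/
def sep (c : Fin 3 → ℝ) (f : Fin 3 → Fin 4 → ℝ → ℝ) : Field :=
  fun p j => c j * ∏ d, f j d (coord p d)

theorem contDiff_sep (c : Fin 3 → ℝ) {f : Fin 3 → Fin 4 → ℝ → ℝ}
    (hf : ∀ j d, ContDiff ℝ ∞ (f j d)) : ContDiff ℝ ∞ (sep c f) := by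
  refine contDiff_pi.2 (fun j => ?_)
  exact contDiff_const.mul (contDiff_prod (fun d _ => (hf j d).comp (contDiff_coord d)))

theorem fderiv_sep (c : Fin 3 → ℝ) {f : Fin 3 → Fin 4 → ℝ → ℝ}
    (hf : ∀ j d, ContDiff ℝ ∞ (f j d)) (p : ℝ × E3) (d : Fin 4) :
    fderiv ℝ (sep c f) p (direction d)
      = sep c (fun j => Function.update (f j) d (deriv (f j d))) p := by
  have hdiff : DifferentiableAt ℝ (sep c f) p :=
    ((contDiff_sep c hf).differentiable (by simp)).differentiableAt
  have hline : HasDerivAt (fun s : ℝ => p + s • direction d) (direction d) 0 := by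
    have := ((hasDerivAt_id (0 : ℝ)).smul_const (direction d)).const_add p
    simpa using this
  have h1 : HasDerivAt (fun s : ℝ => sep c f (p + s • direction d))
      (fderiv ℝ (sep c f) p (direction d)) 0 := by
    have hp : HasFDerivAt (sep c f) (fderiv ℝ (sep c f) p) (p + (0 : ℝ) • direction d) := by
      simpa using hdiff.hasFDerivAt
    exact hp.comp_hasDerivAt (0 : ℝ) hline
  have h2 : HasDerivAt (fun s : ℝ => sep c f (p + s • direction d))
      (sep c (fun j => Function.update (f j) d (deriv (f j d))) p) 0 := by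
    rw [hasDerivAt_pi]
    intro j
    have e1 : (fun s : ℝ => sep c f (p + s • direction d) j)
        = fun s : ℝ => c j * (f j d (coord p d + s) *
            ∏ d' ∈ Finset.univ.erase d, f j d' (coord p d')) := by
      funext s
      simp only [sep]
      rw [← Finset.mul_prod_erase Finset.univ _ (Finset.mem_univ d)]
      congr 2
      · rw [coord_add_smul, coord_direction]; simp
      · refine Finset.prod_congr rfl (fun d' hd' => ?_)
        rw [coord_add_smul, coord_direction, if_neg (Finset.ne_of_mem_erase hd')]; simp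
    have e2 : sep c (fun j => Function.update (f j) d (deriv (f j d))) p j
        = c j * (deriv (f j d) (coord p d) *
            ∏ d' ∈ Finset.univ.erase d, f j d' (coord p d')) := by
      simp only [sep]
      rw [← Finset.mul_prod_erase Finset.univ _ (Finset.mem_univ d)]
      congr 2
      · simp
      · refine Finset.prod_congr rfl (fun d' hd' => ?_)
        rw [Function.update_of_ne (Finset.ne_of_mem_erase hd')]
    rw [e1, e2]
    have hd1 : HasDerivAt (fun s : ℝ => f j d (coord p d + s)) (deriv (f j d) (coord p d)) 0 := by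
      have hfd : DifferentiableAt ℝ (f j d) (coord p d + 0) :=
        ((hf j d).differentiable (by simp)).differentiableAt
      have := hfd.hasDerivAt.comp_const_add (coord p d) 0
      simpa using this
    exact (hd1.mul_const _).const_mul _
  exact h1.unique h2

theorem contDiff_iteratedDeriv {f : ℝ → ℝ} (hf : ContDiff ℝ ∞ f) (k : ℕ) :
    ContDiff ℝ ∞ (iteratedDeriv k f) := by
  rw [iteratedDeriv_eq_iterate]
  exact hf.iterate_deriv k

theorem mixedDeriv_sep (c : Fin 3 → ℝ) {f : Fin 3 → Fin 4 → ℝ → ℝ}
    (hf : ∀ j d, ContDiff ℝ ∞ (f j d)) (ds : List (Fin 4)) :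
    mixedDeriv ds (sep c f) = sep c (fun j d => iteratedDeriv (ds.count d) (f j d)) := by
  induction ds with
  | nil => simp [mixedDeriv]
  | cons d ds ih =>
    funext p
    simp only [mixedDeriv]
    rw [ih, fderiv_sep c (fun j d => contDiff_iteratedDeriv (hf j d) _)]
    congr 1
    funext j d'
    by_cases h : d' = d
    · subst h
      simp [iteratedDeriv_succ]
    · rw [Function.update_of_ne h, List.count_cons_of_ne (Ne.symm h)]

theorem primrec_count (d : Fin 4) : Primrec (fun l : List (Fin 4) => l.count d) := by
  have hp : PrimrecPred (fun x : Fin 4 => x = d) := Primrec.eq.comp Primrec.id (Primrec.const d)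
  have h := Primrec.list_length.comp (Primrec.listFilter hp)
  refine h.of_eq (fun l => ?_)
  rw [List.count_eq_length_filter]
  congr 1

/-- rational coordinates. -/
def coordQ (x : ℚ × (Fin 3 → ℚ)) : Fin 4 → ℚ := Fin.cons x.1 x.2

theorem coord_ratPoint (x : ℚ × (Fin 3 → ℚ)) (d : Fin 4) :
    coord ((x.1 : ℝ), ratPoint x.2) d = ((coordQ x d : ℚ) : ℝ) := by
  refine Fin.cases ?_ (fun j => ?_) d
  · rfl
  · rfl

theorem comp_coordQ (d : Fin 4) : Computable (fun x : ℚ × (Fin 3 → ℚ) => coordQ x d) := by
  refine Fin.cases ?_ (fun j => ?_) d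
  · exact Computable.fst
  · have h : Computable₂ (fun (v : Fin 3 → ℚ) (i : Fin 3) => v i) := Computable.fin_app
    have h2 : Computable (fun x : ℚ × (Fin 3 → ℚ) => x.2 j) :=
      h.comp Computable.snd (Computable.const j)
    exact h2.of_eq (fun x => rfl)

theorem CompReal.finset_prod {α ι : Type*} [Primcodable α] (s : Finset ι) {F : ι → α → ℝ}
    (h : ∀ i ∈ s, CompReal (F i)) : CompReal (fun a => ∏ i ∈ s, F i a) := by
  classical
  induction s using Finset.induction_on with
  | empty => simpa using CompReal.const (α := α) 1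
  | insert i s hi ih =>
    have h1 := (h i (Finset.mem_insert_self i s)).mul
      (ih (fun k hk => h k (Finset.mem_insert_of_mem hk)))
    exact h1.of_eq (fun a => by rw [Finset.prod_insert hi])

theorem comp_finset_prod {α ι : Type*} [Primcodable α] (s : Finset ι) {F : ι → α → ℕ}
    (h : ∀ i ∈ s, Computable (F i)) : Computable (fun a => ∏ i ∈ s, F i a) := by
  classical
  induction s using Finset.induction_on with
  | empty => simpa using Computable.const (α := α) 1
  | insert i s hi ih =>
    have h1 := cnat_mul.comp (h i (Finset.mem_insert_self i s))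
      (ih (fun k hk => h k (Finset.mem_insert_of_mem hk)))
    exact h1.of_eq (fun a => by rw [Finset.prod_insert hi])

theorem comp_finset_sum {α ι : Type*} [Primcodable α] (s : Finset ι) {F : ι → α → ℕ}
    (h : ∀ i ∈ s, Computable (F i)) : Computable (fun a => ∑ i ∈ s, F i a) := by
  classical
  induction s using Finset.induction_on with
  | empty => simpa using Computable.const (α := α) 0
  | insert i s hi ih =>
    have h1 := cnat_add.comp (h i (Finset.mem_insert_self i s))
      (ih (fun k hk => h k (Finset.mem_insert_of_mem hk)))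
    exact h1.of_eq (fun a => by rw [Finset.sum_insert hi])

theorem effField_sep (c : Fin 3 → ℚ) {f : Fin 3 → Fin 4 → ℝ → ℝ} (hf : ∀ j d, Eff1 (f j d)) :
    EffField (sep (fun j => (c j : ℝ)) f) := by
  have hsm : ∀ j d, ContDiff ℝ ∞ (f j d) := fun j d => (hf j d).1
  choose B hB hb using fun j d => (hf j d).2.2
  refine ⟨fun j => ?_, fun ds => ∑ j, natBound (c j) * ∏ d, B j d (ds.count d), ?_, ?_⟩
  · have h1 : CompReal (fun x : PtCode => ((c j : ℚ) : ℝ) *
        ∏ d, iteratedDeriv (x.1.count d) (f j d) ((coordQ x.2 d : ℚ) : ℝ)) := by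
      refine (CompReal.const (c j)).mul (CompReal.finset_prod _ (fun d _ => ?_))
      exact (hf j d).2.1.comp (g := fun x : PtCode => (x.1.count d, coordQ x.2 d))
        (Computable.pair ((primrec_count d).to_comp.comp Computable.fst)
          ((comp_coordQ d).comp Computable.snd))
    refine h1.of_eq (fun x => ?_)
    rw [mixedDeriv_sep _ hsm]
    simp only [sep, coord_ratPoint]
  · refine comp_finset_sum _ (fun j _ => cnat_mul.comp (Computable.const _) ?_)
    exact comp_finset_prod _ (fun d _ => (hB j d).comp (primrec_count d).to_comp)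
  · intro ds p j
    rw [mixedDeriv_sep _ hsm]
    simp only [sep]
    have h1 : |(c j : ℝ) * ∏ d, iteratedDeriv (ds.count d) (f j d) (coord p d)|
        ≤ (natBound (c j) : ℝ) * ∏ d, (B j d (ds.count d) : ℝ) := by
      rw [abs_mul, Finset.abs_prod]
      refine mul_le_mul (abs_le_natBound_real _) ?_ (Finset.prod_nonneg (fun _ _ => abs_nonneg _))
        (Nat.cast_nonneg _)
      exact Finset.prod_le_prod (fun _ _ => abs_nonneg _) (fun d _ => hb j d _ _)
    refine h1.trans ?_
    push_cast
    exact Finset.single_le_sum (f := fun j => (natBound (c j) : ℝ) * ∏ d, (B j d (ds.count d) : ℝ))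
      (fun i _ => by positivity) (Finset.mem_univ j)

end Crest.Agent.S0170
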