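import Mathlib
import Crest.Agent.S0170_Sep
import Crest.Agent.S0170_Plateau
import Crest.Agent.S0170_ODE

/-!
# S0170: the elementary move
-/

set_option autoImplicit false

namespace Crest.Agent.S0170

open Crest.AnalysisR.BoxFlow
open scoped ContDiff

section elem

variable (τ₀ τ₁ : ℚ) (α β : Fin 3) (v₀ v₁ : ℚ) (l u : Fin 3 → ℚ) (ε : ℚ)

/-- the three spatial profile functions. -/
noncomputable def prof (i : Fin 3) : ℝ → ℝ :=
  if i = β then quadPlateau v₀ v₁ (l i - ε) (u i + ε) ε else plateau (l i - ε) (u i + ε) ε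

/-- spatial factors of the `j`-th component. -/
noncomputable def elemG (j i : Fin 3) : ℝ → ℝ :=
  if i = (if j = α then β else α) then deriv (prof β v₀ v₁ l u ε i) else prof β v₀ v₁ l u ε i

/-- all factors of the `j`-th component. -/
noncomputable def elemF (j : Fin 3) : Fin 4 → ℝ → ℝ :=
  Fin.cons (deriv (stepFn τ₀ τ₁)) (elemG α β v₀ v₁ l u ε j)

/-- coefficients. -/
def elemC (j : Fin 3) : ℚ := if j = α then 1 else if j = β then -1 else 0

/-- the elementary field. -/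
noncomputable def elemU : Field :=
  sep (fun j => (elemC α β j : ℝ)) (elemF τ₀ τ₁ α β v₀ v₁ l u ε)

/-- the autonomous spatial field. -/
noncomputable def elemW (x : E3) : E3 :=
  fun j => (elemC α β j : ℝ) * ∏ i, elemG α β v₀ v₁ l u ε j i (x i)

theorem elemU_eq (t : ℝ) (x : E3) :
    elemU τ₀ τ₁ α β v₀ v₁ l u ε (t, x) = deriv (stepFn τ₀ τ₁) t • elemW α β v₀ v₁ l u ε x := by
  funext j
  simp only [elemU, sep, elemW, Pi.smul_apply, smul_eq_mul, Fin.prod_univ_succ, elemF,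
    Fin.cons_zero, Fin.cons_succ, coord_zero, coord_succ]
  ring

variable {τ₀ τ₁ α β v₀ v₁ l u ε}

theorem eff1_prof (hε : 0 < ε) (hlu : ∀ j, l j ≤ u j) (i : Fin 3) :
    Eff1 (prof β v₀ v₁ l u ε i) := by
  unfold prof
  split_ifs
  · exact eff1_quadPlateau _ _ _ _ _ hε (by linarith [hlu i])
  · exact eff1_plateau _ _ _

theorem eff1_elemG (hε : 0 < ε) (hlu : ∀ j, l j ≤ u j) (j i : Fin 3) :
    Eff1 (elemG α β v₀ v₁ l u ε j i) := by
  unfold elemG
  by_cases h : i = (if j = α then β else α)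
  · rw [if_pos h]; exact (eff1_prof hε hlu i).deriv
  · rw [if_neg h]; exact eff1_prof hε hlu i

theorem eff1_elemF (hε : 0 < ε) (hlu : ∀ j, l j ≤ u j) (j : Fin 3) (d : Fin 4) :
    Eff1 (elemF τ₀ τ₁ α β v₀ v₁ l u ε j d) := by
  refine Fin.cases ?_ (fun i => ?_) d
  · exact (eff1_stepFn τ₀ τ₁).deriv
  · exact eff1_elemG hε hlu j i

theorem elemG_out (hε : 0 < ε) (hlu : ∀ j, l j ≤ u j) (j i : Fin 3) {y : ℝ}
    (h : y < (l i : ℝ) - 2 * ε ∨ (u i : ℝ) + 2 * ε < y) : elemG α β v₀ v₁ l u ε j i y = 0 := by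
  have hAB : l i - ε ≤ u i + ε := by linarith [hlu i]
  have h' : y < ((l i - ε : ℚ) : ℝ) - ε ∨ ((u i + ε : ℚ) : ℝ) + ε < y := by
    push_cast
    rcases h with h | h
    · left; linarith
    · right; linarith
  have h'' : y ≤ ((l i - ε : ℚ) : ℝ) - ε ∨ ((u i + ε : ℚ) : ℝ) + ε ≤ y :=
    h'.imp le_of_lt le_of_lt
  unfold elemG
  by_cases h1 : i = (if j = α then β else α)
  · rw [if_pos h1]
    unfold prof
    by_cases h2 : i = β
    · rw [if_pos h2]; exact deriv_quadPlateau_of_out hε hAB h'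
    · rw [if_neg h2]; exact deriv_plateau_of_out hε hAB h'
  · rw [if_neg h1]
    unfold prof
    by_cases h2 : i = β
    · rw [if_pos h2]; exact quadPlateau_eq_zero hε hAB h''
    · rw [if_neg h2]; exact plateau_eq_zero hε hAB h''

theorem elemW_out (hε : 0 < ε) (hlu : ∀ j, l j ≤ u j) {x : E3}
    (h : ∃ i, x i < (l i : ℝ) - 2 * ε ∨ (u i : ℝ) + 2 * ε < x i) :
    elemW α β v₀ v₁ l u ε x = 0 := by
  obtain ⟨i, hi⟩ := h
  funext j
  simp only [elemW, Pi.zero_apply]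
  rw [Finset.prod_eq_zero (Finset.mem_univ i) (elemG_out hε hlu j i hi), mul_zero]

theorem elemW_in (hε : 0 < ε) (hαβ : α ≠ β) {x : E3}
    (h : ∀ i, (l i : ℝ) - ε < x i ∧ x i < (u i : ℝ) + ε) :
    elemW α β v₀ v₁ l u ε x = ((v₀ : ℝ) + (v₁ : ℝ) * x β) • (Pi.single α 1 : E3) := by
  have hin : ∀ i, ((l i - ε : ℚ) : ℝ) < x i ∧ x i < ((u i + ε : ℚ) : ℝ) := by
    intro i; push_cast; exact h i
  funext j
  simp only [elemW, Pi.smul_apply, smul_eq_mul]
  by_cases hj : j = α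
  · subst hj
    rw [Finset.prod_eq_single β]
    · simp only [elemC, elemG, prof, if_true, Pi.single_eq_same]
      rw [deriv_quadPlateau_of_mem hε (hin β).1 (hin β).2]
      push_cast; ring
    · intro i _ hi
      simp only [elemG, prof, if_true, if_neg hi]
      exact plateau_eq_one hε (hin i).1.le (hin i).2.le
    · intro hc; exact absurd (Finset.mem_univ β) hc
  · rw [Pi.single_eq_of_ne hj, mul_zero]
    have : elemG α β v₀ v₁ l u ε j α (x α) = 0 := by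
      simp only [elemG, prof, if_neg hj, if_true, if_neg hαβ]
      exact deriv_plateau_of_mem hε (hin α).1 (hin α).2
    rw [Finset.prod_eq_zero (Finset.mem_univ α) this, mul_zero]

theorem contDiff_elemW (hε : 0 < ε) (hlu : ∀ j, l j ≤ u j) :
    ContDiff ℝ ∞ (elemW α β v₀ v₁ l u ε) := by
  refine contDiff_pi.2 (fun j => ?_)
  exact contDiff_const.mul (contDiff_prod (fun i _ =>
    (eff1_elemG hε hlu j i).1.comp (contDiff_apply ℝ ℝ i)))

theorem hasCompactSupport_elemW (hε : 0 < ε) (hlu : ∀ j, l j ≤ u j) :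
    HasCompactSupport (elemW α β v₀ v₁ l u ε) := by
  refine HasCompactSupport.intro
    (K := Set.Icc (fun i => (l i : ℝ) - 2 * ε) (fun i => (u i : ℝ) + 2 * ε)) isCompact_Icc ?_
  intro x hx
  apply elemW_out hε hlu
  by_contra hc
  push Not at hc
  exact hx ⟨fun i => (hc i).1, fun i => (hc i).2⟩

theorem contDiff_elemU (hε : 0 < ε) (hlu : ∀ j, l j ≤ u j) :
    ContDiff ℝ ∞ (elemU τ₀ τ₁ α β v₀ v₁ l u ε) :=
  contDiff_sep _ (fun j d => (eff1_elemF hε hlu j d).1)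

theorem effField_elemU (hε : 0 < ε) (hlu : ∀ j, l j ≤ u j) :
    EffField (elemU τ₀ τ₁ α β v₀ v₁ l u ε) :=
  effField_sep _ (fun j d => eff1_elemF hε hlu j d)

theorem elemU_time (hτ : τ₀ < τ₁) (p : ℝ × E3) (hp : p.1 ∉ Set.Ioo (τ₀ : ℝ) (τ₁ : ℝ)) :
    elemU τ₀ τ₁ α β v₀ v₁ l u ε p = 0 := by
  obtain ⟨t, x⟩ := p
  rw [elemU_eq, deriv_stepFn_eq_zero hτ hp, zero_smul]

theorem hasCompactSupport_elemU (hτ : τ₀ < τ₁) (hε : 0 < ε) (hlu : ∀ j, l j ≤ u j) :
    HasCompactSupport (elemU τ₀ τ₁ α β v₀ v₁ l u ε) := by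
  refine HasCompactSupport.intro
    (K := Set.Icc (τ₀ : ℝ) (τ₁ : ℝ) ×ˢ
      Set.Icc (fun i => (l i : ℝ) - 2 * ε) (fun i => (u i : ℝ) + 2 * ε))
    (isCompact_Icc.prod isCompact_Icc) ?_
  rintro ⟨t, x⟩ hx
  by_cases ht : t ∈ Set.Icc (τ₀ : ℝ) (τ₁ : ℝ)
  · rw [elemU_eq, elemW_out hε hlu, smul_zero]
    by_contra hc
    push Not at hc
    exact hx ⟨ht, ⟨fun i => (hc i).1, fun i => (hc i).2⟩⟩
  · exact elemU_time hτ _ (fun h => ht ⟨h.1.le, h.2.le⟩)

theorem spaceDiv_elemU (hαβ : α ≠ β) (hε : 0 < ε) (hlu : ∀ j, l j ≤ u j) (p : ℝ × E3) :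
    spaceDiv (elemU τ₀ τ₁ α β v₀ v₁ l u ε) p = 0 := by
  unfold spaceDiv
  have h1 : ∀ j : Fin 3, fderiv ℝ (elemU τ₀ τ₁ α β v₀ v₁ l u ε) p (0, Pi.single j 1) j
      = (elemC α β j : ℝ) * (deriv (stepFn τ₀ τ₁) p.1 *
          ∏ i, (if i = α ∨ i = β then deriv (prof β v₀ v₁ l u ε i) else prof β v₀ v₁ l u ε i)
            (p.2 i)) := by
    intro j
    rw [← direction_succ, elemU, fderiv_sep _ (fun j d => (eff1_elemF hε hlu j d).1)]
    simp only [sep]
    by_cases hj : j = α ∨ j = β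
    · rw [Fin.prod_univ_succ]
      congr 2
      · refine Finset.prod_congr rfl (fun i _ => ?_)
        have hset : (i = α ∨ i = β) ↔ (i = j ∨ i = (if j = α then β else α)) := by
          rcases hj with rfl | rfl
          · simp
          · simp [hαβ.symm, or_comm]
        have hjo : j ≠ (if j = α then β else α) := by
          rcases hj with rfl | rfl
          · simp [hαβ]
          · simpa [hαβ.symm] using hαβ.symm
        by_cases hij : i = j
        · subst hij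
          rw [Function.update_self, if_pos (hset.2 (Or.inl rfl))]
          simp only [elemF, Fin.cons_succ, elemG, if_neg hjo, coord_succ]
        · rw [Function.update_of_ne (fun h => hij (Fin.succ_injective _ h))]
          simp only [elemF, Fin.cons_succ, elemG, coord_succ]
          by_cases hio : i = (if j = α then β else α)
          · rw [if_pos hio, if_pos (hset.2 (Or.inr hio))]
          · rw [if_neg hio, if_neg (fun h => (hset.1 h).elim hij hio)]
    · have hja : j ≠ α := fun h => hj (Or.inl h)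
      have hjb : j ≠ β := fun h => hj (Or.inr h)
      simp [elemC, hja, hjb]
  simp only [h1]
  rw [Fintype.sum_eq_add α β hαβ]
  · simp only [elemC, if_true, if_neg hαβ.symm]
    push_cast; ring
  · intro j hj
    simp [elemC, hj.1, hj.2]

theorem shear_eq (x : E3) :
    shear α β v₀ v₁ x = x + ((v₀ : ℝ) + (v₁ : ℝ) * x β) • (Pi.single α 1 : E3) := by
  funext j
  unfold shear
  by_cases hj : j = α
  · subst hj; simp
  · simp [Function.update_of_ne hj, Pi.single_eq_of_ne hj]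

theorem elem_solution (h0 : 0 ≤ τ₀) (hτ : τ₀ < τ₁) (h1 : τ₁ ≤ 1) (hαβ : α ≠ β) (hε : 0 < ε)
    (hlu : ∀ j, l j ≤ u j) (x : E3) :
    ∃ γ : ℝ → E3, γ 0 = x ∧ (∀ t, HasDerivAt γ (elemU τ₀ τ₁ α β v₀ v₁ l u ε (t, γ t)) t) ∧
      (((∀ i, (l i : ℝ) - ε < x i ∧ x i < (u i : ℝ) + ε) ∧
        (l α : ℝ) - ε < x α + ((v₀ : ℝ) + v₁ * x β) ∧
          x α + ((v₀ : ℝ) + v₁ * x β) < (u α : ℝ) + ε) → γ 1 = shear α β v₀ v₁ x) ∧
      ((∃ i, x i < (l i : ℝ) - 2 * ε ∨ (u i : ℝ) + 2 * ε < x i) → γ 1 = x) := by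
  have hε' : (0 : ℝ) < ε := by exact_mod_cast hε
  have hΘ0 : stepFn τ₀ τ₁ 0 = 0 := stepFn_of_le hτ (by exact_mod_cast h0)
  have hΘ1 : stepFn τ₀ τ₁ 1 = 1 := stepFn_of_ge hτ (by exact_mod_cast h1)
  by_cases hA : ((∀ i, (l i : ℝ) - ε < x i ∧ x i < (u i : ℝ) + ε) ∧
        (l α : ℝ) - ε < x α + ((v₀ : ℝ) + v₁ * x β) ∧
          x α + ((v₀ : ℝ) + v₁ * x β) < (u α : ℝ) + ε)
  · -- explicit solution
    set w : ℝ := (v₀ : ℝ) + v₁ * x β with hw
    refine ⟨fun t => x + (stepFn τ₀ τ₁ t * w) • (Pi.single α 1 : E3), ?_, ?_, ?_, ?_⟩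
    · simp [hΘ0]
    · intro t
      have hin : ∀ i, (l i : ℝ) - ε < (x + (stepFn τ₀ τ₁ t * w) • (Pi.single α 1 : E3)) i ∧
          (x + (stepFn τ₀ τ₁ t * w) • (Pi.single α 1 : E3)) i < (u i : ℝ) + ε := by
        intro i
        by_cases hi : i = α
        · subst hi
          simp only [Pi.add_apply, Pi.smul_apply, Pi.single_eq_same, smul_eq_mul, mul_one]
          have a0 := stepFn_nonneg τ₀ τ₁ t
          have a1 := stepFn_le_one τ₀ τ₁ t
          have b0 := hA.1 i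
          have b1 := hA.2
          constructor
          · rcases le_total 0 w with hw0 | hw0
            · nlinarith [mul_nonneg a0 hw0]
            · nlinarith [mul_nonneg (sub_nonneg.2 a1) (neg_nonneg.2 hw0)]
          · rcases le_total 0 w with hw0 | hw0
            · nlinarith [mul_nonneg (sub_nonneg.2 a1) hw0]
            · nlinarith [mul_nonneg a0 (neg_nonneg.2 hw0)]
        · simpa [Pi.single_eq_of_ne hi] using hA.1 i
      rw [elemU_eq, elemW_in hε hαβ hin]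
      have hβ : (x + (stepFn τ₀ τ₁ t * w) • (Pi.single α 1 : E3)) β = x β := by
        simp [Pi.single_eq_of_ne hαβ.symm]
      rw [hβ, ← hw, smul_smul]
      exact (((hasDerivAt_stepFn τ₀ τ₁ t).mul_const w).smul_const _).const_add x
    · intro _
      simp only [hΘ1, one_mul]
      rw [shear_eq]
    · rintro ⟨i, hi⟩
      exfalso
      have := hA.1 i
      rcases hi with hi | hi <;> linarith [this.1, this.2]
  · by_cases hB : ∃ i, x i < (l i : ℝ) - 2 * ε ∨ (u i : ℝ) + 2 * ε < x i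
    · refine ⟨fun _ => x, rfl, fun t => ?_, fun h => absurd h hA, fun _ => rfl⟩
      rw [elemU_eq, elemW_out hε hlu hB, smul_zero]
      exact hasDerivAt_const t x
    · obtain ⟨C, hC⟩ := ContDiff.lipschitzWith_of_hasCompactSupport
        (hasCompactSupport_elemW (α := α) (β := β) (v₀ := v₀) (v₁ := v₁) hε hlu)
        (contDiff_elemW hε hlu) (by simp)
      obtain ⟨M, hM⟩ := (contDiff_elemW (α := α) (β := β) (v₀ := v₀) (v₁ := v₁) hε
        hlu).continuous.bounded_above_of_compact_support (hasCompactSupport_elemW hε hlu)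
      obtain ⟨ψ, hψ0, hψ⟩ := exists_global_solution _ C hC M hM x
      refine ⟨fun t => ψ (stepFn τ₀ τ₁ t), by simp [hΘ0, hψ0], fun t => ?_,
        fun h => absurd h hA, fun h => absurd h hB⟩
      rw [elemU_eq]
      exact (hψ (stepFn τ₀ τ₁ t)).scomp t (hasDerivAt_stepFn τ₀ τ₁ t)

theorem elem_window (h0 : 0 ≤ τ₀) (hτ : τ₀ < τ₁) (h1 : τ₁ ≤ 1) (hαβ : α ≠ β) (hε : 0 < ε)
    (hlu : ∀ j, l j ≤ u j) :
    ∃ (U : Field) (Φ : ℝ → E3 → E3), GoodField τ₀ τ₁ U ∧ IsFlow U Φ ∧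
      (∀ x : E3, ((∀ i, (l i : ℝ) - ε < x i ∧ x i < (u i : ℝ) + ε) ∧
        (l α : ℝ) - ε < x α + ((v₀ : ℝ) + v₁ * x β) ∧
          x α + ((v₀ : ℝ) + v₁ * x β) < (u α : ℝ) + ε) → Φ 1 x = shear α β v₀ v₁ x) ∧
      (∀ x : E3, (∃ i, x i < (l i : ℝ) - 2 * ε ∨ (u i : ℝ) + 2 * ε < x i) → Φ 1 x = x) := by
  choose γ hγ0 hγ hγA hγB using
    elem_solution (v₀ := v₀) (v₁ := v₁) h0 hτ h1 hαβ hε hlu
  refine ⟨elemU τ₀ τ₁ α β v₀ v₁ l u ε, fun t x => γ x t,
    ⟨contDiff_elemU hε hlu, hasCompactSupport_elemU hτ hε hlu, effField_elemU hε hlu,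
      elemU_time hτ, spaceDiv_elemU hαβ hε hlu⟩, ⟨hγ0, fun t x => hγ x t⟩, hγA, hγB⟩

end elem

/-- choice of the margin. -/
theorem exists_margin (l u : Fin 3 → ℚ) (K : Set E3) (hK : IsCompact K)
    (hd : ∀ x ∈ K, ∃ j, x j < (l j : ℝ) ∨ (u j : ℝ) < x j) :
    ∃ ε : ℚ, 0 < ε ∧ ∀ x ∈ K, ∃ j, x j < (l j : ℝ) - 2 * ε ∨ (u j : ℝ) + 2 * ε < x j := by
  let V : ℕ → Set E3 := fun k =>
    {x | ∃ j, x j < (l j : ℝ) - 2 * (1 / ((k : ℝ) + 1)) ∨ (u j : ℝ) + 2 * (1 / ((k : ℝ) + 1)) < x j}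
  have hVo : ∀ k, IsOpen (V k) := by
    intro k
    have : V k = ⋃ j, ({x : E3 | x j < (l j : ℝ) - 2 * (1 / ((k : ℝ) + 1))} ∪
        {x : E3 | (u j : ℝ) + 2 * (1 / ((k : ℝ) + 1)) < x j}) := by
      ext x; simp [V]
    rw [this]
    exact isOpen_iUnion (fun j => (isOpen_lt (continuous_apply j) continuous_const).union
      (isOpen_lt continuous_const (continuous_apply j)))
  have hmono : Monotone V := by
    intro k k' hkk x hx
    obtain ⟨j, hj⟩ := hx
    have h1 : 1 / ((k' : ℝ) + 1) ≤ 1 / ((k : ℝ) + 1) := by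
      apply one_div_le_one_div_of_le (by positivity)
      have : (k : ℝ) ≤ k' := by exact_mod_cast hkk
      linarith
    exact ⟨j, hj.imp (fun h => by linarith) (fun h => by linarith)⟩
  have hcov : K ⊆ ⋃ k, V k := by
    intro x hx
    obtain ⟨j, hj⟩ := hd x hx
    rcases hj with hj | hj
    · obtain ⟨k, hk⟩ := exists_nat_one_div_lt (show (0 : ℝ) < ((l j : ℝ) - x j) / 2 by linarith)
      exact Set.mem_iUnion.2 ⟨k, j, Or.inl (by linarith)⟩
    · obtain ⟨k, hk⟩ := exists_nat_one_div_lt (show (0 : ℝ) < (x j - (u j : ℝ)) / 2 by linarith)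
      exact Set.mem_iUnion.2 ⟨k, j, Or.inr (by linarith)⟩
  obtain ⟨k, hk⟩ := hK.elim_directed_cover V hVo hcov (directed_of_isDirected_le hmono)
  refine ⟨1 / ((k : ℚ) + 1), by positivity, fun x hx => ?_⟩
  obtain ⟨j, hj⟩ := hk hx
  refine ⟨j, ?_⟩
  push_cast
  exact hj

theorem Reach.elem {n : ℕ} (K : Fin n → Set E3) (hK : ∀ i, IsCompact (K i)) (i₀ : Fin n)
    (α β : Fin 3) (hαβ : α ≠ β) (v₀ v₁ : ℚ) (l u : Fin 3 → ℚ) (hlu : ∀ j, l j ≤ u j)
    (h0 : ∀ x ∈ K i₀, ∀ j, (l j : ℝ) ≤ x j ∧ x j ≤ (u j : ℝ))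
    (h1 : ∀ x ∈ K i₀, (l α : ℝ) ≤ x α + ((v₀ : ℝ) + v₁ * x β) ∧
      x α + ((v₀ : ℝ) + v₁ * x β) ≤ (u α : ℝ))
    (hd : ∀ i, i ≠ i₀ → ∀ x ∈ K i, ∃ j, x j < (l j : ℝ) ∨ (u j : ℝ) < x j) :
    Reach n K (fun i => if i = i₀ then shear α β v₀ v₁ else id) := by
  -- margin
  have hKc : IsCompact (⋃ i ∈ {i : Fin n | i ≠ i₀}, K i) :=
    (Set.toFinite _).isCompact_biUnion (fun i _ => hK i)
  obtain ⟨ε, hε, hmar⟩ := exists_margin l u _ hKc (by
    intro x hx
    simp only [Set.mem_iUnion] at hx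
    obtain ⟨i, hi, hxi⟩ := hx
    exact hd i hi x hxi)
  have hε' : (0 : ℝ) < ε := by exact_mod_cast hε
  intro τ₀ τ₁ hτ0 hτ hτ1
  obtain ⟨U, Φ, hU, hΦ, hin, hout⟩ :=
    elem_window (v₀ := v₀) (v₁ := v₁) (l := l) (u := u) hτ0 hτ hτ1 hαβ hε hlu
  refine ⟨U, Φ, hU, hΦ, fun i => ?_⟩
  by_cases hi : i = i₀
  · subst hi
    refine ⟨{x : E3 | (∀ i, (l i : ℝ) - ε < x i ∧ x i < (u i : ℝ) + ε) ∧
        (l α : ℝ) - ε < x α + ((v₀ : ℝ) + v₁ * x β) ∧
          x α + ((v₀ : ℝ) + v₁ * x β) < (u α : ℝ) + ε}, ?_, ?_, ?_⟩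
    · have c1 : Continuous (fun x : E3 => x α + ((v₀ : ℝ) + v₁ * x β)) :=
        (continuous_apply α).add (continuous_const.add (continuous_const.mul (continuous_apply β)))
      have hA : IsOpen {x : E3 | ∀ i, (l i : ℝ) - ε < x i ∧ x i < (u i : ℝ) + ε} := by
        have : {x : E3 | ∀ i, (l i : ℝ) - ε < x i ∧ x i < (u i : ℝ) + ε}
            = ⋂ i, ({x : E3 | (l i : ℝ) - ε < x i} ∩ {x : E3 | x i < (u i : ℝ) + ε}) := by
          ext x; simp
        rw [this]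
        exact isOpen_iInter_of_finite (fun j =>
          (isOpen_lt continuous_const (continuous_apply j)).inter
            (isOpen_lt (continuous_apply j) continuous_const))
      exact hA.inter ((isOpen_lt continuous_const c1).inter (isOpen_lt c1 continuous_const))
    · intro x hx
      refine ⟨fun j => ⟨by linarith [(h0 x hx j).1], by linarith [(h0 x hx j).2]⟩,
        by linarith [(h1 x hx).1], by linarith [(h1 x hx).2]⟩
    · intro x hx
      simp only [if_true]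
      exact hin x hx
  · refine ⟨{x : E3 | ∃ j, x j < (l j : ℝ) - 2 * ε ∨ (u j : ℝ) + 2 * ε < x j}, ?_, ?_, ?_⟩
    · have : {x : E3 | ∃ j, x j < (l j : ℝ) - 2 * ε ∨ (u j : ℝ) + 2 * ε < x j}
          = ⋃ j, ({x : E3 | x j < (l j : ℝ) - 2 * ε} ∪ {x : E3 | (u j : ℝ) + 2 * ε < x j}) := by
        ext x; simp
      rw [this]
      exact isOpen_iUnion (fun j => (isOpen_lt (continuous_apply j) continuous_const).union
        (isOpen_lt continuous_const (continuous_apply j)))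
    · intro x hx
      exact hmar x (Set.mem_biUnion (show i ∈ {i : Fin n | i ≠ i₀} from hi) hx)
    · intro x hx
      simp only [if_neg hi, id]
      exact hout x hx

end Crest.Agent.S0170
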