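import Mathlib
import Crest.Prelude.Def_BoxFlow
import Crest.Agent.S0170_Defs

/-!
# S0170 (GEOM), part 1: abstract interface, boxes, affine maps, local moves
-/

set_option autoImplicit false

namespace Crest.Agent.S0170

open Crest.AnalysisR.BoxFlow

/-- The three facts on `Reach` used by the geometric part. -/
structure ReachAx : Prop where
  refl : ∀ (n : ℕ) (K : Fin n → Set E3), Reach n K (fun _ => id)
  trans : ∀ {n : ℕ} {K K' : Fin n → Set E3} {f g : Fin n → E3 → E3},
    Reach n K f → (∀ i, Continuous (f i)) → (∀ i, Set.MapsTo (f i) (K i) (K' i)) →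
    Reach n K' g → Reach n K (fun i => g i ∘ f i)
  elem : ∀ {n : ℕ} (K : Fin n → Set E3) (_ : ∀ i, IsCompact (K i)) (i₀ : Fin n)
    (α β : Fin 3) (_ : α ≠ β) (v₀ v₁ : ℚ) (l u : Fin 3 → ℚ) (_ : ∀ j, l j ≤ u j)
    (_ : ∀ x ∈ K i₀, ∀ j, (l j : ℝ) ≤ x j ∧ x j ≤ (u j : ℝ))
    (_ : ∀ x ∈ K i₀, (l α : ℝ) ≤ x α + ((v₀ : ℝ) + v₁ * x β) ∧
      x α + ((v₀ : ℝ) + v₁ * x β) ≤ (u α : ℝ))
    (_ : ∀ i, i ≠ i₀ → ∀ x ∈ K i, ∃ j, x j < (l j : ℝ) ∨ (u j : ℝ) < x j),
    Reach n K (fun i => if i = i₀ then shear α β v₀ v₁ else id)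

/-! ### boxes -/

theorem mem_box {c h : Fin 3 → ℚ} {x : E3} :
    x ∈ box c h ↔ ∀ j, |x j - (c j : ℝ)| ≤ (h j : ℝ) := Iff.rfl

theorem box_eq_Icc (c h : Fin 3 → ℚ) :
    box c h = Set.Icc (fun j => (c j : ℝ) - h j) (fun j => (c j : ℝ) + h j) := by
  ext x
  simp only [mem_box, Set.mem_Icc, Pi.le_def, abs_le]
  constructor
  · intro H
    exact ⟨fun j => by linarith [(H j).1], fun j => by linarith [(H j).2]⟩
  · intro H j
    exact ⟨by linarith [H.1 j], by linarith [H.2 j]⟩

theorem isCompact_box (c h : Fin 3 → ℚ) : IsCompact (box c h) := by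
  rw [box_eq_Icc]; exact isCompact_Icc

/-! ### the shear -/

theorem shear_apply_same (α β : Fin 3) (v₀ v₁ : ℚ) (x : E3) :
    shear α β v₀ v₁ x α = x α + ((v₀ : ℝ) + (v₁ : ℝ) * x β) := by
  simp [shear]

theorem shear_apply_ne (α β : Fin 3) (v₀ v₁ : ℚ) (x : E3) {j : Fin 3} (hj : j ≠ α) :
    shear α β v₀ v₁ x j = x j := by
  simp [shear, hj]

theorem continuous_shear (α β : Fin 3) (v₀ v₁ : ℚ) : Continuous (shear α β v₀ v₁) := by
  unfold shear
  apply continuous_pi
  intro j
  by_cases hj : j = α
  · subst hj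
    simp only [Function.update_self]
    fun_prop
  · simp only [Function.update_of_ne hj]
    fun_prop

/-! ### affine maps between boxes -/

/-- the affine map carrying `box c w` onto `box c' w'`. -/
noncomputable def aff (c w c' w' : Fin 3 → ℚ) : E3 → E3 :=
  fun x j => (c' j : ℝ) + ((w' j / w j : ℚ) : ℝ) * (x j - (c j : ℝ))

theorem continuous_aff (c w c' w' : Fin 3 → ℚ) : Continuous (aff c w c' w') := by
  unfold aff
  fun_prop

theorem aff_self (c w : Fin 3 → ℚ) (hw : ∀ j, 0 < w j) : aff c w c w = id := by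
  funext x j
  have : (w j : ℝ) ≠ 0 := by exact_mod_cast (hw j).ne'
  simp only [aff, id]
  push_cast
  field_simp
  ring

theorem aff_comp (c w c' w' c'' w'' : Fin 3 → ℚ) (hw' : ∀ j, 0 < w' j) :
    aff c' w' c'' w'' ∘ aff c w c' w' = aff c w c'' w'' := by
  funext x j
  have : (w' j : ℝ) ≠ 0 := by exact_mod_cast (hw' j).ne'
  simp only [aff, Function.comp]
  push_cast
  by_cases h0 : (w j : ℝ) = 0
  · simp [h0]
  · field_simp
    ring

theorem aff_mapsTo (c w c' w' : Fin 3 → ℚ) (hw : ∀ j, 0 < w j) (hw' : ∀ j, 0 < w' j) :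
    Set.MapsTo (aff c w c' w') (box c w) (box c' w') := by
  intro x hx j
  have h1 : (0 : ℝ) < w j := by exact_mod_cast hw j
  have h2 : (0 : ℝ) < w' j := by exact_mod_cast hw' j
  have hx' := hx j
  simp only [aff]
  push_cast
  rw [add_sub_cancel_left, abs_mul, abs_of_pos (div_pos h2 h1)]
  calc (w' j : ℝ) / w j * |x j - c j| ≤ (w' j : ℝ) / w j * w j := by gcongr
    _ = w' j := by field_simp

/-! ### local moves: only the set with index `i₀` moves -/

/-- `Loc K₀ i₀ S g`: with the `i₀`-th set replaced by `S`, we can realise `g` near `S` and the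
identity near the other sets. -/
def Loc {n : ℕ} (K₀ : Fin n → Set E3) (i₀ : Fin n) (S : Set E3) (g : E3 → E3) : Prop :=
  Reach n (Function.update K₀ i₀ S) (fun i => if i = i₀ then g else id)

theorem Loc.trans (ax : ReachAx) {n : ℕ} {K₀ : Fin n → Set E3} {i₀ : Fin n} {S S' : Set E3}
    {g g' : E3 → E3} (h₁ : Loc K₀ i₀ S g) (hg : Continuous g) (hm : Set.MapsTo g S S')
    (h₂ : Loc K₀ i₀ S' g') : Loc K₀ i₀ S (g' ∘ g) := by
  have := ax.trans (K' := Function.update K₀ i₀ S') h₁ (fun i => by
    by_cases hi : i = i₀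
    · simpa [hi] using hg
    · simpa [hi] using continuous_id) (fun i => by
    by_cases hi : i = i₀
    · subst hi; simpa using hm
    · simpa [hi] using Set.mapsTo_id _) h₂
  unfold Loc
  convert this using 2 with i
  by_cases hi : i = i₀
  · simp [hi]
  · simp [hi]

/-- a centred shear of a box, the other sets being separated in a coordinate `γ ≠ α`. -/
theorem loc_shear (ax : ReachAx) {n : ℕ} (K₀ : Fin n → Set E3) (hK : ∀ i, IsCompact (K₀ i))
    (i₀ : Fin n) (P W : Fin 3 → ℚ) (hW : ∀ j, 0 ≤ W j) (α β γ : Fin 3) (hαβ : α ≠ β)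
    (hγ : γ ≠ α) (c : ℚ)
    (hsep : ∀ i, i ≠ i₀ → ∀ x ∈ K₀ i, (W γ : ℝ) < |x γ - (P γ : ℝ)|) :
    Loc K₀ i₀ (box P W) (shear α β (-(c * P β)) c) := by
  unfold Loc
  have hWr : ∀ j, (0 : ℝ) ≤ W j := fun j => by exact_mod_cast hW j
  set W' : Fin 3 → ℚ := Function.update W α (W α + |c| * W β) with hW'
  have hWW' : ∀ j, W j ≤ W' j := by
    intro j
    by_cases hj : j = α
    · subst hj
      simp only [hW', Function.update_self]
      have := mul_nonneg (abs_nonneg c) (hW β)
      linarith
    · simp [hW', Function.update_of_ne hj]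
  have hWW'r : ∀ j, (W j : ℝ) ≤ W' j := fun j => by exact_mod_cast hWW' j
  refine ax.elem _ ?_ i₀ α β hαβ _ _ (fun j => P j - W' j) (fun j => P j + W' j) ?_ ?_ ?_ ?_
  · intro i
    by_cases hi : i = i₀
    · subst hi; simpa using isCompact_box P W
    · simpa [hi] using hK i
  · intro j
    have := (hW j).trans (hWW' j)
    linarith
  · intro x hx j
    simp only [Function.update_self] at hx
    have h1 := abs_le.1 (hx j)
    have h2 := hWW'r j
    push_cast
    constructor <;> linarith [h1.1, h1.2]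
  · intro x hx
    simp only [Function.update_self] at hx
    have h1 := abs_le.1 (hx α)
    have h2 : |(c : ℝ) * (x β - P β)| ≤ |(c : ℝ)| * W β := by
      rw [abs_mul]; gcongr; exact hx β
    have h3 := abs_le.1 h2
    have h4 : (W' α : ℝ) = W α + |(c : ℝ)| * W β := by
      simp [hW']
    push_cast
    rw [h4]
    constructor <;> nlinarith [h1.1, h1.2, h3.1, h3.2]
  · intro i hi x hx
    rw [Function.update_of_ne hi] at hx
    have h1 := hsep i hi x hx
    have h2 : W' γ = W γ := by simp [hW', Function.update_of_ne hγ]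
    refine ⟨γ, ?_⟩
    push_cast
    rw [h2]
    rcases lt_abs.1 h1 with h | h
    · right; linarith
    · left; linarith

theorem shear_mapsTo (P W : Fin 3 → ℚ) (α β : Fin 3) (c : ℚ) :
    Set.MapsTo (shear α β (-(c * P β)) c) (box P W)
      (box P (Function.update W α (W α + |c| * W β))) := by
  intro x hx j
  by_cases hj : j = α
  · subst hj
    rw [shear_apply_same]
    simp only [Function.update_self]
    push_cast
    have h2 : |(c : ℝ) * (x β - P β)| ≤ |(c : ℝ)| * W β := by
      rw [abs_mul]; gcongr; exact hx β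
    have : x j + (-((c : ℝ) * P β) + c * x β) - P j = (x j - P j) + c * (x β - P β) := by ring
    rw [this]
    exact (abs_add_le _ _).trans (add_le_add (hx j) h2)
  · rw [shear_apply_ne _ _ _ _ _ hj, Function.update_of_ne hj]
    exact hx j

/-- an axis translation of a box. -/
theorem loc_translate (ax : ReachAx) {n : ℕ} (K₀ : Fin n → Set E3) (hK : ∀ i, IsCompact (K₀ i))
    (i₀ : Fin n) (P W : Fin 3 → ℚ) (hW : ∀ j, 0 ≤ W j) (α : Fin 3) (v : ℚ)
    (hsep : ∀ i, i ≠ i₀ → ∀ x ∈ K₀ i, (∃ j, j ≠ α ∧ (W j : ℝ) < |x j - (P j : ℝ)|) ∨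
      x α < min (P α : ℝ) (P α + v) - W α ∨ max (P α : ℝ) (P α + v) + W α < x α) :
    Loc K₀ i₀ (box P W) (shear α (α + 1) v 0) := by
  unfold Loc
  have hWr : ∀ j, (0 : ℝ) ≤ W j := fun j => by exact_mod_cast hW j
  have hα : α ≠ α + 1 := by fin_cases α <;> decide
  refine ax.elem _ ?_ i₀ α (α + 1) hα _ _
    (Function.update (fun j => P j - W j) α (min (P α) (P α + v) - W α))
    (Function.update (fun j => P j + W j) α (max (P α) (P α + v) + W α)) ?_ ?_ ?_ ?_
  · intro i
    by_cases hi : i = i₀
    · subst hi; simpa using isCompact_box P W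
    · simpa [hi] using hK i
  · intro j
    by_cases hj : j = α
    · subst hj
      simp only [Function.update_self]
      have := hW j
      have h1 : min (P j) (P j + v) ≤ P j := min_le_left _ _
      have h2 : P j ≤ max (P j) (P j + v) := le_max_left _ _
      linarith
    · simp only [Function.update_of_ne hj]
      have := hW j
      linarith
  · intro x hx j
    simp only [Function.update_self] at hx
    have h1 := abs_le.1 (hx j)
    by_cases hj : j = α
    · subst hj
      simp only [Function.update_self]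
      push_cast
      have h2 : min (P j : ℝ) (P j + v) ≤ P j := min_le_left _ _
      have h3 : (P j : ℝ) ≤ max (P j : ℝ) (P j + v) := le_max_left _ _
      constructor <;> linarith [h1.1, h1.2]
    · simp only [Function.update_of_ne hj]
      push_cast
      constructor <;> linarith [h1.1, h1.2]
  · intro x hx
    simp only [Function.update_self] at hx
    have h1 := abs_le.1 (hx α)
    simp only [Function.update_self]
    push_cast
    have h2 : min (P α : ℝ) (P α + v) ≤ P α + v := min_le_right _ _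
    have h3 : (P α : ℝ) + v ≤ max (P α : ℝ) (P α + v) := le_max_right _ _
    constructor <;> linarith [h1.1, h1.2]
  · intro i hi x hx
    rw [Function.update_of_ne hi] at hx
    rcases hsep i hi x hx with ⟨j, hj, h⟩ | h | h
    · refine ⟨j, ?_⟩
      simp only [Function.update_of_ne hj]
      push_cast
      rcases lt_abs.1 h with h | h
      · right; linarith
      · left; linarith
    · refine ⟨α, Or.inl ?_⟩
      simp only [Function.update_self]
      push_cast
      exact h
    · refine ⟨α, Or.inr ?_⟩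
      simp only [Function.update_self]
      push_cast
      exact h

end Crest.Agent.S0170
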