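import Mathlib
import Crest.Prelude.Def_BoxFlow
import Crest.Agent.S0170_Defs
import Crest.Agent.S0170_Geom1

/-!
# S0170 (GEOM), part 2: configurations of boxes, translations and reshaping of one box
-/

set_option autoImplicit false

namespace Crest.Agent.S0170

open Crest.AnalysisR.BoxFlow

/-- the configuration of boxes `(c, w)` can be carried to the configuration `(c', w')`. -/
def Conn (n : ℕ) (c w c' w' : Fin n → Fin 3 → ℚ) : Prop :=
  Reach n (fun i => box (c i) (w i)) (fun i => aff (c i) (w i) (c' i) (w' i))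

theorem Conn.refl (ax : ReachAx) (n : ℕ) (c w : Fin n → Fin 3 → ℚ) (hw : ∀ i j, 0 < w i j) :
    Conn n c w c w := by
  unfold Conn
  have := ax.refl n (fun i => box (c i) (w i))
  convert this using 2 with i
  exact aff_self _ _ (hw i)

theorem Conn.trans (ax : ReachAx) {n : ℕ} {c w c' w' c'' w'' : Fin n → Fin 3 → ℚ}
    (hw : ∀ i j, 0 < w i j) (hw' : ∀ i j, 0 < w' i j)
    (h₁ : Conn n c w c' w') (h₂ : Conn n c' w' c'' w'') : Conn n c w c'' w'' := by
  unfold Conn at *
  have := ax.trans h₁ (fun i => continuous_aff _ _ _ _)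
    (fun i => aff_mapsTo _ _ _ _ (hw i) (hw' i)) h₂
  convert this using 2 with i
  exact (aff_comp _ _ _ _ _ _ (hw' i)).symm

/-- from a local move to a `Conn`. -/
theorem Conn.of_loc {n : ℕ} (c w c' w' : Fin n → Fin 3 → ℚ) (hw : ∀ i j, 0 < w i j) (i₀ : Fin n)
    (g : E3 → E3) (h : Loc (fun i => box (c i) (w i)) i₀ (box (c i₀) (w i₀)) g)
    (hc : ∀ i, i ≠ i₀ → c' i = c i) (hw' : ∀ i, i ≠ i₀ → w' i = w i)
    (hg : g = aff (c i₀) (w i₀) (c' i₀) (w' i₀)) : Conn n c w c' w' := by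
  unfold Conn
  unfold Loc at h
  rw [Function.update_eq_self] at h
  convert h using 2 with i
  by_cases hi : i = i₀
  · subst hi; simp [hg]
  · simp only [hi, if_false]
    rw [hc i hi, hw' i hi]
    exact aff_self _ _ (hw i)

/-- translation of the box `i₀` along the axis `α` to the new coordinate `t`. -/
theorem conn_translate (ax : ReachAx) {n : ℕ} (c w : Fin n → Fin 3 → ℚ) (hw : ∀ i j, 0 < w i j)
    (i₀ : Fin n) (α : Fin 3) (t : ℚ)
    (hsep : ∀ i, i ≠ i₀ → ∀ x ∈ box (c i) (w i),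
      (∃ j, j ≠ α ∧ (w i₀ j : ℝ) < |x j - (c i₀ j : ℝ)|) ∨
      x α < min (c i₀ α : ℝ) t - w i₀ α ∨ max (c i₀ α : ℝ) t + w i₀ α < x α) :
    Conn n c w (Function.update c i₀ (Function.update (c i₀) α t)) w := by
  have h := loc_translate ax (fun i => box (c i) (w i)) (fun i => isCompact_box _ _) i₀
    (c i₀) (w i₀) (fun j => (hw i₀ j).le) α (t - c i₀ α) (by
      intro i hi x hx
      have := hsep i hi x hx
      push_cast
      simpa using this)
  refine Conn.of_loc c w _ w hw i₀ _ h (fun i hi => by simp [hi]) (fun i _ => rfl) ?_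
  funext x j
  have hwj : (w i₀ j : ℝ) ≠ 0 := by exact_mod_cast (hw i₀ j).ne'
  simp only [aff, Function.update_self]
  by_cases hj : j = α
  · subst hj
    rw [shear_apply_same]
    simp only [Function.update_self]
    push_cast
    field_simp
    ring
  · rw [shear_apply_ne _ _ _ _ _ hj, Function.update_of_ne hj]
    push_cast
    field_simp
    ring

/-- both directions. -/
def SymConn (n : ℕ) (c w c' w' : Fin n → Fin 3 → ℚ) : Prop :=
  Conn n c w c' w' ∧ Conn n c' w' c w

theorem SymConn.refl (ax : ReachAx) (n : ℕ) (c w : Fin n → Fin 3 → ℚ) (hw : ∀ i j, 0 < w i j) :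
    SymConn n c w c w := ⟨Conn.refl ax n c w hw, Conn.refl ax n c w hw⟩

theorem SymConn.trans (ax : ReachAx) {n : ℕ} {c w c' w' c'' w'' : Fin n → Fin 3 → ℚ}
    (hw : ∀ i j, 0 < w i j) (hw' : ∀ i j, 0 < w' i j) (hw'' : ∀ i j, 0 < w'' i j)
    (h₁ : SymConn n c w c' w') (h₂ : SymConn n c' w' c'' w'') : SymConn n c w c'' w'' :=
  ⟨Conn.trans ax hw hw' h₁.1 h₂.1, Conn.trans ax hw'' hw' h₂.2 h₁.2⟩

theorem symconn_translate (ax : ReachAx) {n : ℕ} (c w : Fin n → Fin 3 → ℚ)
    (hw : ∀ i j, 0 < w i j) (i₀ : Fin n) (α : Fin 3) (t : ℚ)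
    (hsep : ∀ i, i ≠ i₀ → ∀ x ∈ box (c i) (w i),
      (∃ j, j ≠ α ∧ (w i₀ j : ℝ) < |x j - (c i₀ j : ℝ)|) ∨
      x α < min (c i₀ α : ℝ) t - w i₀ α ∨ max (c i₀ α : ℝ) t + w i₀ α < x α) :
    SymConn n c w (Function.update c i₀ (Function.update (c i₀) α t)) w := by
  refine ⟨conn_translate ax c w hw i₀ α t hsep, ?_⟩
  have h := conn_translate ax (Function.update c i₀ (Function.update (c i₀) α t)) w hw i₀ α
    (c i₀ α) (by
      intro i hi x hx
      rw [Function.update_of_ne hi] at hx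
      simp only [Function.update_self]
      rcases hsep i hi x hx with ⟨j, hj, h⟩ | h | h
      · left
        exact ⟨j, hj, by rw [Function.update_of_ne hj]; exact h⟩
      · right; left
        rw [min_comm]; exact h
      · right; right
        rw [max_comm]; exact h)
  simpa using h

/-- separation in a coordinate `γ ≠ α` is enough for a translation along `α`. -/
theorem symconn_translate_of_sep (ax : ReachAx) {n : ℕ} (c w : Fin n → Fin 3 → ℚ)
    (hw : ∀ i j, 0 < w i j) (i₀ : Fin n) (α γ : Fin 3) (hγ : γ ≠ α) (t : ℚ)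
    (hsep : ∀ i, i ≠ i₀ → w i γ + w i₀ γ < |c i γ - c i₀ γ|) :
    SymConn n c w (Function.update c i₀ (Function.update (c i₀) α t)) w := by
  refine symconn_translate ax c w hw i₀ α t ?_
  intro i hi x hx
  left
  refine ⟨γ, hγ, ?_⟩
  have h1 : (w i γ : ℝ) + w i₀ γ < |(c i γ : ℝ) - c i₀ γ| := by exact_mod_cast hsep i hi
  have h2 := hx γ
  have h3 : |(c i γ : ℝ) - c i₀ γ| ≤ |x γ - c i₀ γ| + |x γ - c i γ| := by
    have : (c i γ : ℝ) - c i₀ γ = (x γ - c i₀ γ) - (x γ - c i γ) := by ring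
    rw [this]; exact abs_sub _ _
  linarith

end Crest.Agent.S0170
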