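import Mathlib
import Crest.Prelude.Def_BoxFlow
import Crest.Agent.S0170_Defs
import Crest.Agent.S0170_Geom1
import Crest.Agent.S0170_Geom2

/-!
# S0170 (GEOM), part 3: reshaping one box in a coordinate plane by four shears
-/

set_option autoImplicit false

namespace Crest.Agent.S0170

open Crest.AnalysisR.BoxFlow

/-- the composition of the four centred shears is the diagonal map. -/
theorem four_shears (P : Fin 3 → ℚ) (α β : Fin 3) (hαβ : α ≠ β) (lam : ℚ) (hlam : 0 < lam)
    (x : E3) (j : Fin 3) :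
    (shear α β (-((lam - 1) * P β)) (lam - 1) (shear β α (-(1 * P α)) 1
      (shear α β (-(((1 - lam) / lam) * P β)) ((1 - lam) / lam)
        (shear β α (-((-lam) * P α)) (-lam) x)))) j =
      if j = α then (P α : ℝ) + lam * (x α - P α)
      else if j = β then (P β : ℝ) + (x β - P β) / lam else x j := by
  have hl : (lam : ℝ) ≠ 0 := by exact_mod_cast hlam.ne'
  by_cases hj : j = α
  · subst hj
    simp only [if_true]
    simp only [shear_apply_same, shear_apply_ne _ _ _ _ _ hαβ, shear_apply_ne _ _ _ _ _ hαβ.symm]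
    push_cast
    field_simp
    ring
  · by_cases hj' : j = β
    · subst hj'
      simp only [hj, if_false, if_true]
      simp only [shear_apply_same, shear_apply_ne _ _ _ _ _ hαβ,
        shear_apply_ne _ _ _ _ _ hαβ.symm]
      push_cast
      field_simp
      ring
    · simp only [hj, hj', if_false]
      rw [shear_apply_ne _ _ _ _ _ hj, shear_apply_ne _ _ _ _ _ hj', shear_apply_ne _ _ _ _ _ hj,
        shear_apply_ne _ _ _ _ _ hj']

/-- reshaping the box `i₀` by `diag(lam, 1/lam)` in the `(α, β)` plane; the other boxes are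
separated from it in the third coordinate `γ`. -/
theorem conn_reshape (ax : ReachAx) {n : ℕ} (c w : Fin n → Fin 3 → ℚ) (hw : ∀ i j, 0 < w i j)
    (i₀ : Fin n) (α β γ : Fin 3) (hαβ : α ≠ β) (hγα : γ ≠ α) (hγβ : γ ≠ β)
    (lam : ℚ) (hlam : 0 < lam)
    (hsep : ∀ i, i ≠ i₀ → w i γ + w i₀ γ < |c i γ - c i₀ γ|) :
    Conn n c w c (Function.update w i₀
      (Function.update (Function.update (w i₀) α (lam * w i₀ α)) β (w i₀ β / lam))) := by
  set K₀ : Fin n → Set E3 := fun i => box (c i) (w i) with hK₀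
  have hK : ∀ i, IsCompact (K₀ i) := fun i => isCompact_box _ _
  -- pointwise separation
  have hsep' : ∀ i, i ≠ i₀ → ∀ x ∈ K₀ i, (w i₀ γ : ℝ) < |x γ - (c i₀ γ : ℝ)| := by
    intro i hi x hx
    have h1 : (w i γ : ℝ) + w i₀ γ < |(c i γ : ℝ) - c i₀ γ| := by exact_mod_cast hsep i hi
    have h2 := hx γ
    have h3 : |(c i γ : ℝ) - c i₀ γ| ≤ |x γ - c i₀ γ| + |x γ - c i γ| := by
      have : (c i γ : ℝ) - c i₀ γ = (x γ - c i₀ γ) - (x γ - c i γ) := by ring
      rw [this]; exact abs_sub _ _
    linarith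
  -- the growing boxes
  set W1 := Function.update (w i₀) β ((w i₀) β + |(-lam)| * (w i₀) α) with hW1
  set W2 := Function.update W1 α (W1 α + |(1 - lam) / lam| * W1 β) with hW2
  set W3 := Function.update W2 β (W2 β + |(1 : ℚ)| * W2 α) with hW3
  have step : ∀ (W : Fin 3 → ℚ) (a b : Fin 3) (s : ℚ), (∀ j, 0 ≤ W j) →
      ∀ j, 0 ≤ Function.update W a (W a + |s| * W b) j := by
    intro W a b s hWn j
    by_cases hj : j = a
    · subst hj
      simp only [Function.update_self]
      have := mul_nonneg (abs_nonneg s) (hWn b)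
      have := hWn j
      linarith
    · simp only [Function.update_of_ne hj]; exact hWn j
  have n0 : ∀ j, 0 ≤ (w i₀) j := fun j => (hw i₀ j).le
  have n1 : ∀ j, 0 ≤ W1 j := step (w i₀) β α _ n0
  have n2 : ∀ j, 0 ≤ W2 j := step W1 α β _ n1
  have n3 : ∀ j, 0 ≤ W3 j := step W2 β α _ n2
  have g1 : W1 γ = (w i₀) γ := by simp [hW1, Function.update_of_ne hγβ]
  have g2 : W2 γ = (w i₀) γ := by simp [hW2, Function.update_of_ne hγα, g1]
  have g3 : W3 γ = (w i₀) γ := by simp [hW3, Function.update_of_ne hγβ, g2]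
  have L1 := loc_shear ax K₀ hK i₀ (c i₀) (w i₀) n0 β α γ hαβ.symm hγβ (-lam) hsep'
  have L2 := loc_shear ax K₀ hK i₀ (c i₀) W1 n1 α β γ hαβ hγα ((1 - lam) / lam)
    (by rw [g1]; exact hsep')
  have L3 := loc_shear ax K₀ hK i₀ (c i₀) W2 n2 β α γ hαβ.symm hγβ 1 (by rw [g2]; exact hsep')
  have L4 := loc_shear ax K₀ hK i₀ (c i₀) W3 n3 α β γ hαβ hγα (lam - 1) (by rw [g3]; exact hsep')
  have M1 := shear_mapsTo (c i₀) (w i₀) β α (-lam)
  have M2 := shear_mapsTo (c i₀) W1 α β ((1 - lam) / lam)
  have M3 := shear_mapsTo (c i₀) W2 β α 1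
  have L34 := Loc.trans ax L3 (continuous_shear _ _ _ _) M3 L4
  have L234 := Loc.trans ax L2 (continuous_shear _ _ _ _) M2 L34
  have L1234 := Loc.trans ax L1 (continuous_shear _ _ _ _) M1 L234
  refine Conn.of_loc c w c _ hw i₀ _ L1234 (fun i _ => rfl) (fun i hi => by simp [hi]) ?_
  funext x j
  have h4 := four_shears (c i₀) α β hαβ lam hlam x j
  simp only [Function.comp] at h4 ⊢
  rw [h4]
  have hl : (lam : ℝ) ≠ 0 := by exact_mod_cast hlam.ne'
  have hwj : (w i₀ j : ℝ) ≠ 0 := by exact_mod_cast (hw i₀ j).ne'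
  simp only [aff, Function.update_self]
  by_cases hj : j = α
  · subst hj
    simp only [if_true, Function.update_of_ne hαβ, Function.update_self]
    push_cast
    field_simp
  · by_cases hj' : j = β
    · subst hj'
      simp only [hj, if_false, if_true, Function.update_self]
      push_cast
      field_simp
    · simp only [hj, hj', if_false, Function.update_of_ne hj, Function.update_of_ne hj']
      push_cast
      field_simp
      ring

end Crest.Agent.S0170
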