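import Mathlib
import Crest.Prelude.Def_BoxFlow
import Crest.Agent.S0170_Defs
import Crest.Agent.S0170_Geom1
import Crest.Agent.S0170_Geom2
import Crest.Agent.S0170_Geom3

/-!
# S0170 (GEOM), part 4: unstacking a family of disjoint boxes to parking positions
-/

set_option autoImplicit false

namespace Crest.Agent.S0170

open Crest.AnalysisR.BoxFlow

/-- parking position of the `i`-th box -/
def park {n : ℕ} (X : Fin n → ℚ) (i : Fin n) : Fin 3 → ℚ := ![X i, 0, X i]

/-- the boxes with index in `T` are parked, the others are at their original place. -/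
def cfg {n : ℕ} (a : Fin n → Fin 3 → ℚ) (X : Fin n → ℚ) (T : Finset (Fin n)) (i : Fin n) :
    Fin 3 → ℚ :=
  if i ∈ T then park X i else a i

theorem unstack_step (ax : ReachAx) {n : ℕ} (a h : Fin n → Fin 3 → ℚ) (hh : ∀ i j, 0 < h i j)
    (ha : Pairwise fun i i' => Disjoint (box (a i) (h i)) (box (a i') (h i')))
    (R : ℚ) (hR0 : 0 < R) (hR : ∀ i j, |a i j| + h i j ≤ R) (X : Fin n → ℚ)
    (hX1 : ∀ i, 4 * R ≤ X i) (hX2 : ∀ i i', i ≠ i' → 4 * R ≤ |X i - X i'|)
    (T : Finset (Fin n)) (i : Fin n) (hi : i ∉ T)
    (hmax : ∀ i', i' ∉ T → a i' 2 + h i' 2 ≤ a i 2 + h i 2) :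
    SymConn n (cfg a X T) h (cfg a X (insert i T)) h := by
  have hc0 : cfg a X T i = a i := by simp [cfg, hi]
  have hhR : ∀ i j, h i j ≤ R := fun i j => by
    have := hR i j; have := abs_nonneg (a i j); linarith
  have haR : ∀ i j, a i j + h i j ≤ R := fun i j => by
    have := hR i j; have := le_abs_self (a i j); linarith
  have haR' : ∀ i j, -R ≤ a i j - h i j := fun i j => by
    have := hR i j; have := neg_abs_le (a i j); linarith
  -- separation in the vertical coordinate once box `i` has been lifted
  have key : ∀ i', i' ≠ i → h i' 2 + h i 2 < |cfg a X T i' 2 - X i| := by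
    intro i' hi'
    have h1 := hhR i' 2
    have h2 := hhR i 2
    by_cases hT : i' ∈ T
    · have : cfg a X T i' 2 = X i' := by simp [cfg, hT, park]
      rw [this]
      have := hX2 i' i hi'
      linarith
    · have : cfg a X T i' 2 = a i' 2 := by simp [cfg, hT]
      rw [this, abs_sub_comm]
      have h3 := le_abs_self (X i - a i' 2)
      have h4 := haR i' 2
      have h5 := hX1 i
      have h6 := hh i' 2
      linarith
  -- first move: lift
  have S1 := symconn_translate ax (cfg a X T) h hh i 2 (X i) (by
    intro i' hi' x hx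
    rw [hc0]
    by_cases hT : i' ∈ T
    · left
      refine ⟨0, by decide, ?_⟩
      have hc : cfg a X T i' 0 = X i' := by simp [cfg, hT, park]
      have h1 := abs_le.1 (hx 0)
      rw [hc] at h1
      have h2 : (4 : ℝ) * R ≤ X i' := by exact_mod_cast hX1 i'
      have h3 : (h i' 0 : ℝ) ≤ R := by exact_mod_cast hhR i' 0
      have h4 : (a i 0 : ℝ) + h i 0 ≤ R := by exact_mod_cast haR i 0
      have h5 : (0 : ℝ) < R := by exact_mod_cast hR0
      have h6 := le_abs_self (x 0 - (a i 0 : ℝ))
      linarith [h1.1]
    · have hc : cfg a X T i' = a i' := by simp [cfg, hT]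
      rw [hc] at hx
      by_contra hcon
      push Not at hcon
      obtain ⟨hc1, hc2, -⟩ := hcon
      have hxi : x ∈ box (a i) (h i) := by
        intro j
        by_cases hj : j = 2
        · subst hj
          have h1 : (a i 2 : ℝ) ≤ X i := by
            have h2 := haR i 2
            have h3 := hX1 i
            have h4 := hh i 2
            have : a i 2 ≤ X i := by linarith
            exact_mod_cast this
          rw [min_eq_left h1] at hc2
          have h5 := abs_le.1 (hx 2)
          have h6 : (a i' 2 : ℝ) + h i' 2 ≤ a i 2 + h i 2 := by exact_mod_cast hmax i' hT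
          rw [abs_le]
          constructor <;> linarith [h5.2]
        · exact hc1 j hj
      exact Set.disjoint_left.1 (ha hi') hx hxi)
  set c1 := Function.update (cfg a X T) i (Function.update (cfg a X T i) 2 (X i)) with hc1
  have S2 := symconn_translate_of_sep ax c1 h hh i 0 2 (by decide) (X i) (by
    intro i' hi'
    have e1 : c1 i' = cfg a X T i' := by simp [hc1, hi']
    have e2 : c1 i 2 = X i := by simp [hc1]
    rw [e1, e2]
    exact key i' hi')
  set c2 := Function.update c1 i (Function.update (c1 i) 0 (X i)) with hc2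
  have S3 := symconn_translate_of_sep ax c2 h hh i 1 2 (by decide) 0 (by
    intro i' hi'
    have e1 : c2 i' = cfg a X T i' := by simp [hc2, hc1, hi']
    have e2 : c2 i 2 = X i := by simp [hc2, hc1]
    rw [e1, e2]
    exact key i' hi')
  have hfin : Function.update c2 i (Function.update (c2 i) 1 0) = cfg a X (insert i T) := by
    funext i'
    by_cases hi' : i' = i
    · subst hi'
      funext j
      fin_cases j <;> simp [hc2, hc1, cfg, park]
    · have : (i' ∈ insert i T) ↔ i' ∈ T := by simp [hi']
      simp [hc2, hc1, hi', cfg]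
  rw [hfin] at S3
  exact SymConn.trans ax hh hh hh (SymConn.trans ax hh hh hh S1 S2) S3

theorem unstack (ax : ReachAx) {n : ℕ} (a h : Fin n → Fin 3 → ℚ) (hh : ∀ i j, 0 < h i j)
    (ha : Pairwise fun i i' => Disjoint (box (a i) (h i)) (box (a i') (h i')))
    (R : ℚ) (hR0 : 0 < R) (hR : ∀ i j, |a i j| + h i j ≤ R) (X : Fin n → ℚ)
    (hX1 : ∀ i, 4 * R ≤ X i) (hX2 : ∀ i i', i ≠ i' → 4 * R ≤ |X i - X i'|) :
    SymConn n a h (park X) h := by
  have main : ∀ (m : ℕ) (T : Finset (Fin n)), (Finset.univ \ T).card = m →
      SymConn n (cfg a X T) h (cfg a X Finset.univ) h := by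
    intro m
    induction m with
    | zero =>
      intro T hT
      have : T = Finset.univ := by
        rw [Finset.card_eq_zero, Finset.sdiff_eq_empty_iff_subset] at hT
        exact Finset.univ_subset_iff.1 hT
      rw [this]
      exact SymConn.refl ax n _ h hh
    | succ m ih =>
      intro T hT
      have hne : (Finset.univ \ T).Nonempty := by
        rw [← Finset.card_pos]; omega
      obtain ⟨i, hi, hmax⟩ := Finset.exists_max_image (Finset.univ \ T)
        (fun i => a i 2 + h i 2) hne
      have hiT : i ∉ T := by simpa using hi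
      have S := unstack_step ax a h hh ha R hR0 hR X hX1 hX2 T i hiT
        (fun i' hi' => hmax i' (by simpa using hi'))
      have hcard : (Finset.univ \ insert i T).card = m := by
        rw [Finset.sdiff_insert, Finset.card_erase_of_mem hi, hT]
        rfl
      exact SymConn.trans ax hh hh hh S (ih _ hcard)
  have h0 := main _ ∅ rfl
  have e1 : cfg a X ∅ = a := by funext i; simp [cfg]
  have e2 : cfg a X Finset.univ = park X := by funext i; simp [cfg]
  rwa [e1, e2] at h0

end Crest.Agent.S0170
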