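import Mathlib
import Crest.Prelude.Def_BoxFlow
import Crest.Agent.S0170_Defs
import Crest.Agent.S0170_Geom1
import Crest.Agent.S0170_Geom2
import Crest.Agent.S0170_Geom3
import Crest.Agent.S0170_Geom4

/-!
# S0170 (GEOM), part 5: reshaping the parked boxes; the theorem `reach_boxes_of_ax`
-/

set_option autoImplicit false

namespace Crest.Agent.S0170

open Crest.AnalysisR.BoxFlow

/-- the boxes with index in `T` have the new shape `k`, the others the old shape `h`. -/
def wcfg {n : ℕ} (h k : Fin n → Fin 3 → ℚ) (T : Finset (Fin n)) (i : Fin n) : Fin 3 → ℚ :=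
  if i ∈ T then k i else h i

theorem wcfg_pos {n : ℕ} (h k : Fin n → Fin 3 → ℚ) (hh : ∀ i j, 0 < h i j)
    (hk : ∀ i j, 0 < k i j) (T : Finset (Fin n)) (i : Fin n) (j : Fin 3) :
    0 < wcfg h k T i j := by
  unfold wcfg; split_ifs
  · exact hk i j
  · exact hh i j

theorem wcfg_le {n : ℕ} (h k : Fin n → Fin 3 → ℚ) (R : ℚ) (hh : ∀ i j, h i j ≤ R)
    (hk : ∀ i j, k i j ≤ R) (T : Finset (Fin n)) (i : Fin n) (j : Fin 3) :
    wcfg h k T i j ≤ R := by
  unfold wcfg; split_ifs
  · exact hk i j
  · exact hh i j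

theorem reshape_step (ax : ReachAx) {n : ℕ} (h k : Fin n → Fin 3 → ℚ) (hh : ∀ i j, 0 < h i j)
    (hk : ∀ i j, 0 < k i j) (hvol : ∀ i, ∏ j : Fin 3, k i j / h i j = 1)
    (R : ℚ) (hR0 : 0 < R) (hhR : ∀ i j, h i j ≤ R) (hkR : ∀ i j, k i j ≤ R) (X : Fin n → ℚ)
    (hX2 : ∀ i i', i ≠ i' → 4 * R ≤ |X i - X i'|)
    (T : Finset (Fin n)) (i : Fin n) (hi : i ∉ T) :
    Conn n (park X) (wcfg h k T) (park X) (wcfg h k (insert i T)) := by
  have hw0 : wcfg h k T i = h i := by simp [wcfg, hi]
  have pos0 := wcfg_pos h k hh hk T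
  have le0 := wcfg_le h k R hhR hkR T
  have h0 := hh i 0
  have h1 := hh i 1
  have h2 := hh i 2
  have k0 := hk i 0
  have k1 := hk i 1
  have k2 := hk i 2
  have C1 := conn_reshape ax (park X) (wcfg h k T) pos0 i 0 1 2 (by decide) (by decide)
    (by decide) (k i 0 / h i 0) (div_pos k0 h0) (by
      intro i' hi'
      have e1 : park X i' 2 = X i' := by simp [park]
      have e2 : park X i 2 = X i := by simp [park]
      rw [e1, e2]
      have := hX2 i' i hi'
      have := le0 i' 2
      have := le0 i 2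
      linarith)
  rw [hw0] at C1
  set w1 := Function.update (wcfg h k T) i
    (Function.update (Function.update (h i) 0 (k i 0 / h i 0 * h i 0)) 1
      (h i 1 / (k i 0 / h i 0))) with hw1
  have w1i0 : w1 i 0 = k i 0 := by
    simp [hw1]; field_simp
  have w1i1 : w1 i 1 = h i 1 * h i 0 / k i 0 := by
    simp [hw1]; field_simp
  have w1i2 : w1 i 2 = h i 2 := by
    simp [hw1]
  have w1ne : ∀ i', i' ≠ i → w1 i' = wcfg h k T i' := by
    intro i' hi'; simp [hw1, hi']
  have pos1 : ∀ i' j, 0 < w1 i' j := by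
    intro i' j
    by_cases hi' : i' = i
    · subst hi'
      fin_cases j
      · show 0 < w1 i' 0
        rw [w1i0]; exact k0
      · show 0 < w1 i' 1
        rw [w1i1]; positivity
      · show 0 < w1 i' 2
        rw [w1i2]; exact h2
    · rw [w1ne i' hi']; exact pos0 i' j
  have C2 := conn_reshape ax (park X) w1 pos1 i 1 2 0 (by decide) (by decide)
    (by decide) (k i 1 / w1 i 1) (div_pos k1 (pos1 i 1)) (by
      intro i' hi'
      have e1 : park X i' 0 = X i' := by simp [park]
      have e2 : park X i 0 = X i := by simp [park]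
      rw [e1, e2, w1ne i' hi', w1i0]
      have := hX2 i' i hi'
      have := le0 i' 0
      have := hkR i 0
      linarith)
  have hfin : Function.update w1 i
      (Function.update (Function.update (w1 i) 1 (k i 1 / w1 i 1 * w1 i 1)) 2
        (w1 i 2 / (k i 1 / w1 i 1))) = wcfg h k (insert i T) := by
    funext i'
    by_cases hi' : i' = i
    · subst hi'
      have hv := hvol i'
      rw [Fin.prod_univ_three] at hv
      have e : wcfg h k (insert i' T) i' = k i' := by simp [wcfg]
      rw [e]
      funext j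
      fin_cases j
      · show Function.update w1 i' _ i' 0 = k i' 0
        simp [w1i0]
      · show Function.update w1 i' _ i' 1 = k i' 1
        have := (pos1 i' 1).ne'
        simp
        field_simp
      · show Function.update w1 i' _ i' 2 = k i' 2
        simp only [Function.update_self]
        rw [w1i2, w1i1]
        field_simp at hv ⊢
        linarith
    · have : (i' ∈ insert i T) ↔ i' ∈ T := by simp [hi']
      simp [hi', w1ne i' hi', wcfg]
  rw [hfin] at C2
  exact Conn.trans ax pos0 pos1 C1 C2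

theorem reshape_all (ax : ReachAx) {n : ℕ} (h k : Fin n → Fin 3 → ℚ) (hh : ∀ i j, 0 < h i j)
    (hk : ∀ i j, 0 < k i j) (hvol : ∀ i, ∏ j : Fin 3, k i j / h i j = 1)
    (R : ℚ) (hR0 : 0 < R) (hhR : ∀ i j, h i j ≤ R) (hkR : ∀ i j, k i j ≤ R) (X : Fin n → ℚ)
    (hX2 : ∀ i i', i ≠ i' → 4 * R ≤ |X i - X i'|) :
    Conn n (park X) h (park X) k := by
  have main : ∀ T : Finset (Fin n), Conn n (park X) h (park X) (wcfg h k T) := by
    intro T
    induction T using Finset.induction_on with
    | empty =>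
      have : wcfg h k ∅ = h := by funext i; simp [wcfg]
      rw [this]
      exact Conn.refl ax n _ _ hh
    | insert i T hi ih =>
      exact Conn.trans ax hh (wcfg_pos h k hh hk T) ih
        (reshape_step ax h k hh hk hvol R hR0 hhR hkR X hX2 T i hi)
  have := main Finset.univ
  have e : wcfg h k Finset.univ = k := by funext i; simp [wcfg]
  rwa [e] at this

/-- (GEOM): the theorem `reach_boxes`, from the three facts on `Reach`. -/
theorem reach_boxes_of_ax (ax : ReachAx) (n : ℕ) (a b h k : Fin n → Fin 3 → ℚ)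
    (hh : ∀ i j, 0 < h i j) (hk : ∀ i j, 0 < k i j)
    (ha : Pairwise fun i i' => Disjoint (box (a i) (h i)) (box (a i') (h i')))
    (hb : Pairwise fun i i' => Disjoint (box (b i) (k i)) (box (b i') (k i')))
    (hvol : ∀ i, ∏ j : Fin 3, k i j / h i j = 1) :
    Reach n (fun i => box (a i) (h i))
      (fun i x j => (b i j : ℝ) + ((k i j / h i j : ℚ) : ℝ) * (x j - (a i j : ℝ))) := by
  set R : ℚ := 1 + ∑ i, ∑ j, (|a i j| + h i j + (|b i j| + k i j)) with hRdef
  have hterm : ∀ i j, 0 ≤ |a i j| + h i j + (|b i j| + k i j) := fun i j => by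
    have := abs_nonneg (a i j); have := abs_nonneg (b i j)
    have := hh i j; have := hk i j
    linarith
  have hle : ∀ i j, |a i j| + h i j + (|b i j| + k i j) ≤ R - 1 := by
    intro i j
    have h1 : |a i j| + h i j + (|b i j| + k i j) ≤ ∑ j, (|a i j| + h i j + (|b i j| + k i j)) :=
      Finset.single_le_sum (f := fun j => |a i j| + h i j + (|b i j| + k i j))
        (fun j _ => hterm i j) (Finset.mem_univ j)
    have h2 : ∑ j, (|a i j| + h i j + (|b i j| + k i j)) ≤
        ∑ i, ∑ j, (|a i j| + h i j + (|b i j| + k i j)) :=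
      Finset.single_le_sum (f := fun i => ∑ j, (|a i j| + h i j + (|b i j| + k i j)))
        (fun i _ => Finset.sum_nonneg (fun j _ => hterm i j)) (Finset.mem_univ i)
    rw [hRdef]; linarith
  have hR0 : 0 < R := by
    have : 0 ≤ ∑ i, ∑ j, (|a i j| + h i j + (|b i j| + k i j)) :=
      Finset.sum_nonneg (fun i _ => Finset.sum_nonneg (fun j _ => hterm i j))
    rw [hRdef]; linarith
  have hRa : ∀ i j, |a i j| + h i j ≤ R := fun i j => by
    have := hle i j; have := abs_nonneg (b i j); have := hk i j; linarith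
  have hRb : ∀ i j, |b i j| + k i j ≤ R := fun i j => by
    have := hle i j; have := abs_nonneg (a i j); have := hh i j; linarith
  have hhR : ∀ i j, h i j ≤ R := fun i j => by
    have := hRa i j; have := abs_nonneg (a i j); linarith
  have hkR : ∀ i j, k i j ≤ R := fun i j => by
    have := hRb i j; have := abs_nonneg (b i j); linarith
  set X : Fin n → ℚ := fun i => 4 * R * ((i : ℕ) + 1) with hX
  have hX1 : ∀ i, 4 * R ≤ X i := by
    intro i
    have : (0 : ℚ) ≤ ((i : ℕ) : ℚ) := Nat.cast_nonneg _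
    simp only [hX]
    nlinarith
  have hX2 : ∀ i i', i ≠ i' → 4 * R ≤ |X i - X i'| := by
    intro i i' hii
    have e : X i - X i' = 4 * R * (((i : ℕ) : ℚ) - ((i' : ℕ) : ℚ)) := by simp only [hX]; ring
    rw [e, abs_mul, abs_of_pos (by linarith : (0 : ℚ) < 4 * R)]
    have h1 : (1 : ℚ) ≤ |((i : ℕ) : ℚ) - ((i' : ℕ) : ℚ)| := by
      have hne : ((i : ℕ) : ℤ) - ((i' : ℕ) : ℤ) ≠ 0 := by
        intro h0
        apply hii
        apply Fin.ext
        omega
      have := Int.one_le_abs hne
      have h2 : ((|((i : ℕ) : ℤ) - ((i' : ℕ) : ℤ)| : ℤ) : ℚ) = |((i : ℕ) : ℚ) - ((i' : ℕ) : ℚ)| := by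
        push_cast; rfl
      rw [← h2]
      exact_mod_cast this
    nlinarith
  have A := (unstack ax a h hh ha R hR0 hRa X hX1 hX2).1
  have B := reshape_all ax h k hh hk hvol R hR0 hhR hkR X hX2
  have C := (unstack ax b k hk hb R hR0 hRb X hX1 hX2).2
  exact Conn.trans ax hh hk (Conn.trans ax hh hh A B) C

end Crest.Agent.S0170
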