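import Mathlib
import Crest.Agent.S0170_CompReal

/-!
# S0170 (MD): algebra of `mixedDeriv`, `EffField`, `Reach.refl` (helper file)
-/

set_option autoImplicit false

namespace Crest.Agent.S0170

open Crest.AnalysisR.BoxFlow
open scoped ContDiff

theorem contDiff_mixedDeriv {U : Field} (hU : ContDiff ℝ ∞ U) (ds : List (Fin 4)) :
    ContDiff ℝ ∞ (mixedDeriv ds U) := by
  induction ds with
  | nil => exact hU
  | cons d ds ih =>
    show ContDiff ℝ ∞ (fun p => fderiv ℝ (mixedDeriv ds U) p (direction d))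
    have h1 : ContDiff ℝ ∞ (fderiv ℝ (mixedDeriv ds U)) := ih.fderiv_right (by simp)
    exact h1.clm_apply contDiff_const

theorem mixedDeriv_add {U V : Field} (hU : ContDiff ℝ ∞ U) (hV : ContDiff ℝ ∞ V)
    (ds : List (Fin 4)) : mixedDeriv ds (U + V) = mixedDeriv ds U + mixedDeriv ds V := by
  induction ds with
  | nil => rfl
  | cons d ds ih =>
    funext p
    show fderiv ℝ (mixedDeriv ds (U + V)) p (direction d)
      = fderiv ℝ (mixedDeriv ds U) p (direction d) + fderiv ℝ (mixedDeriv ds V) p (direction d)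
    rw [ih]
    have h1 : DifferentiableAt ℝ (mixedDeriv ds U) p :=
      ((contDiff_mixedDeriv hU ds).differentiable (by simp)) p
    have h2 : DifferentiableAt ℝ (mixedDeriv ds V) p :=
      ((contDiff_mixedDeriv hV ds).differentiable (by simp)) p
    rw [fderiv_add h1 h2]
    rfl

theorem mixedDeriv_zero (ds : List (Fin 4)) : mixedDeriv ds (0 : Field) = 0 := by
  induction ds with
  | nil => rfl
  | cons d ds ih =>
    funext p
    show fderiv ℝ (mixedDeriv ds (0 : Field)) p (direction d) = 0
    rw [ih]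
    simp

theorem spaceDiv_add {U V : Field} (hU : ContDiff ℝ ∞ U) (hV : ContDiff ℝ ∞ V)
    (p : ℝ × E3) : spaceDiv (U + V) p = spaceDiv U p + spaceDiv V p := by
  have h1 : DifferentiableAt ℝ U p := (hU.differentiable (by simp)) p
  have h2 : DifferentiableAt ℝ V p := (hV.differentiable (by simp)) p
  unfold spaceDiv
  rw [fderiv_add h1 h2, ← Finset.sum_add_distrib]
  rfl

theorem spaceDiv_zero (p : ℝ × E3) : spaceDiv (0 : Field) p = 0 := by
  unfold spaceDiv
  simp

theorem EffField.add {U V : Field} (hU : ContDiff ℝ ∞ U) (hV : ContDiff ℝ ∞ V)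
    (eU : EffField U) (eV : EffField V) : EffField (U + V) := by
  obtain ⟨cU, bU, hbU, hU'⟩ := eU
  obtain ⟨cV, bV, hbV, hV'⟩ := eV
  refine ⟨fun j => ?_, fun ds => bU ds + bV ds, ?_, ?_⟩
  · refine ((cU j).add (cV j)).of_eq fun x => ?_
    rw [mixedDeriv_add hU hV]
    rfl
  · exact cnat_add.comp hbU hbV
  · intro ds p j
    rw [mixedDeriv_add hU hV]
    push_cast
    exact (abs_add_le _ _).trans (add_le_add (hU' ds p j) (hV' ds p j))

theorem EffField.zero : EffField (0 : Field) := by
  refine ⟨fun j => ?_, fun _ => 0, Computable.const 0, ?_⟩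
  · refine (CompReal.const (α := PtCode) 0).of_eq fun x => ?_
    rw [mixedDeriv_zero]
    simp
  · intro ds p j
    rw [mixedDeriv_zero]
    simp

theorem effective_of_effField (U : Field) (h : EffField U) : Effective U := by
  obtain ⟨c, bound, hb, hbd⟩ := h
  choose A hA hAe using c
  refine ⟨fun x => fun j => A j ((x.1, x.2.1), x.2.2), bound, ?_, hb, ?_, hbd⟩
  · have hre : Computable (fun x : List (Fin 4) × (ℚ × (Fin 3 → ℚ)) × ℕ =>
        (((x.1, x.2.1), x.2.2) : PtCode × ℕ)) :=
      Computable.pair (Computable.pair Computable.fst (Computable.fst.comp Computable.snd))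
        (Computable.snd.comp Computable.snd)
    have h1 : Computable (fun x : List (Fin 4) × (ℚ × (Fin 3 → ℚ)) × ℕ =>
        List.Vector.ofFn (fun j => A j ((x.1, x.2.1), x.2.2))) :=
      Computable.vector_ofFn fun j => (hA j).comp hre
    have h2 := (Primrec.vector_get' (α := ℚ) (n := 3)).to_comp.comp h1
    refine h2.of_eq fun x => ?_
    funext j
    simp
  · intro ds t q n j
    exact hAe j (ds, (t, q)) n

theorem Reach.refl (n : ℕ) (K : Fin n → Set E3) : Reach n K (fun _ => id) := by
  intro τ₀ τ₁ _ _ _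
  refine ⟨0, fun _ x => x, ⟨contDiff_const, HasCompactSupport.zero, EffField.zero,
    fun _ _ => rfl, spaceDiv_zero⟩, ⟨fun _ => rfl, fun t x => ?_⟩, fun i => ⟨Set.univ, isOpen_univ,
    Set.subset_univ _, fun _ _ => rfl⟩⟩
  simpa using hasDerivAt_const t x

end Crest.Agent.S0170
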