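import Mathlib
import Crest.Agent.S0170_MixedDeriv

/-!
# S0170 (GLUE): `Reach` is transitive (helper file)
-/

set_option autoImplicit false

namespace Crest.Agent.S0170

open Crest.AnalysisR.BoxFlow Set
open scoped ContDiff

/-- a curve whose derivative vanishes on `[a, b]` is constant there. -/
theorem const_of_hasDerivAt_zero {γ : ℝ → E3} {a b : ℝ}
    (h : ∀ t ∈ Icc a b, HasDerivAt γ 0 t) : ∀ t ∈ Icc a b, γ t = γ a :=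
  constant_of_has_deriv_right_zero (fun t ht => (h t ht).continuousAt.continuousWithinAt)
    (fun t ht => (h t (Ico_subset_Icc_self ht)).hasDerivWithinAt)

/-- a flow line is constant on any interval on which the field vanishes. -/
theorem flow_const {U : Field} {Φ : ℝ → E3 → E3} (hΦ : IsFlow U Φ) {a b : ℝ}
    (hU : ∀ p : ℝ × E3, p.1 ∈ Icc a b → U p = 0) (x : E3) :
    ∀ t ∈ Icc a b, Φ t x = Φ a x := by
  refine const_of_hasDerivAt_zero (γ := fun s => Φ s x) fun t ht => ?_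
  have h := hΦ.2 t x
  rwa [hU (t, Φ t x) ht] at h

theorem Reach.trans {n : ℕ} {K K' : Fin n → Set E3} {f g : Fin n → E3 → E3}
    (h₁ : Reach n K f) (hf : ∀ i, Continuous (f i)) (hm : ∀ i, Set.MapsTo (f i) (K i) (K' i))
    (h₂ : Reach n K' g) : Reach n K (fun i => g i ∘ f i) := by
  intro τ₀ τ₁ h0 h01 h1
  obtain ⟨mid, hmid⟩ : ∃ mid : ℚ, mid = (τ₀ + τ₁) / 2 := ⟨_, rfl⟩
  have hm0 : τ₀ < mid := by rw [hmid]; linarith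
  have hm1 : mid < τ₁ := by rw [hmid]; linarith
  obtain ⟨U₁, Φ₁, ⟨hs₁, hc₁, he₁, hv₁, hd₁⟩, hF₁, hO₁⟩ := h₁ τ₀ mid h0 hm0 (by linarith)
  obtain ⟨U₂, Φ₂, ⟨hs₂, hc₂, he₂, hv₂, hd₂⟩, hF₂, hO₂⟩ := h₂ mid τ₁ (by linarith) hm1 h1
  have r0 : (0 : ℝ) ≤ (τ₀ : ℝ) := by exact_mod_cast h0
  have rm0 : (τ₀ : ℝ) < (mid : ℝ) := by exact_mod_cast hm0
  have rm1 : (mid : ℝ) < (τ₁ : ℝ) := by exact_mod_cast hm1
  have r1 : (τ₁ : ℝ) ≤ 1 := by exact_mod_cast h1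
  -- `Φ₂ t y = y` for `t ≤ mid`
  have A : ∀ t : ℝ, t ≤ mid → ∀ y, Φ₂ t y = y := by
    intro t ht y
    have hz : ∀ p : ℝ × E3, p.1 ∈ Icc (min t 0) (mid : ℝ) → U₂ p = 0 :=
      fun p hp => hv₂ p (fun hq => absurd hq.1 (not_lt.mpr hp.2))
    have e1 := flow_const hF₂ hz y t ⟨min_le_left _ _, ht⟩
    have e2 := flow_const hF₂ hz y 0 ⟨min_le_right _ _, by linarith⟩
    rw [e1, ← e2, hF₂.1]
  -- `Φ₁ t x = Φ₁ 1 x` for `t ≥ mid`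
  have B : ∀ t : ℝ, (mid : ℝ) ≤ t → ∀ x, Φ₁ t x = Φ₁ 1 x := by
    intro t ht x
    have hz : ∀ p : ℝ × E3, p.1 ∈ Icc (mid : ℝ) (max t 1) → U₁ p = 0 :=
      fun p hp => hv₁ p (fun hq => absurd hq.2 (not_lt.mpr hp.1))
    have e1 := flow_const hF₁ hz x t ⟨ht, le_max_left _ _⟩
    have e2 := flow_const hF₁ hz x 1 ⟨by linarith, le_max_right _ _⟩
    rw [e1, ← e2]
  refine ⟨U₁ + U₂, fun t x => Φ₁ t x + Φ₂ t (Φ₁ 1 x) - Φ₁ 1 x,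
    ⟨hs₁.add hs₂, hc₁.add hc₂, EffField.add hs₁ hs₂ he₁ he₂, ?_, ?_⟩, ⟨?_, ?_⟩, ?_⟩
  · intro p hp
    have e1 : U₁ p = 0 := hv₁ p (fun hq => hp ⟨hq.1, hq.2.trans rm1⟩)
    have e2 : U₂ p = 0 := hv₂ p (fun hq => hp ⟨rm0.trans hq.1, hq.2⟩)
    simp [e1, e2]
  · intro p
    rw [spaceDiv_add hs₁ hs₂, hd₁, hd₂, add_zero]
  · intro x
    simp only
    rw [hF₁.1, hF₂.1]
    abel
  · intro t x
    have hder : HasDerivAt (fun s => Φ₁ s x + Φ₂ s (Φ₁ 1 x) - Φ₁ 1 x)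
        (U₁ (t, Φ₁ t x) + U₂ (t, Φ₂ t (Φ₁ 1 x))) t :=
      ((hF₁.2 t x).add (hF₂.2 t (Φ₁ 1 x))).sub_const _
    have hval : (U₁ + U₂) (t, Φ₁ t x + Φ₂ t (Φ₁ 1 x) - Φ₁ 1 x) =
        U₁ (t, Φ₁ t x) + U₂ (t, Φ₂ t (Φ₁ 1 x)) := by
      rcases le_total t (mid : ℝ) with ht | ht
      · have e2 : ∀ z, U₂ (t, z) = 0 :=
          fun z => hv₂ (t, z) (fun hq => absurd hq.1 (not_lt.mpr ht))
        rw [A t ht, Pi.add_apply, e2, e2]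
        congr 3
        abel
      · have e1 : ∀ z, U₁ (t, z) = 0 :=
          fun z => hv₁ (t, z) (fun hq => absurd hq.2 (not_lt.mpr ht))
        rw [B t ht, Pi.add_apply, e1, e1]
        congr 3
        abel
    rw [hval]
    exact hder
  · intro i
    obtain ⟨O₁, hO₁o, hK₁, hΦ₁⟩ := hO₁ i
    obtain ⟨O₂, hO₂o, hK₂, hΦ₂⟩ := hO₂ i
    refine ⟨O₁ ∩ (f i) ⁻¹' O₂, hO₁o.inter (hO₂o.preimage (hf i)),
      fun x hx => ⟨hK₁ hx, hK₂ (hm i hx)⟩, fun x hx => ?_⟩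
    simp only [Function.comp]
    rw [hΦ₁ x hx.1, hΦ₂ (f i x) hx.2]
    abel

end Crest.Agent.S0170
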